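import Vale.Agent.P237.AllN.Lift
import Vale.Agent.P237.AllN.Universal.Fisher

/-!
# P237: the cone measure through the gauge

With `N` the gauge of a symmetric body `K`, `radial K y = y / N y` sends the uniform measure of `K`
to the cone measure of its boundary, and `normalAt K y` is the normal there. Two identities
integrate functions of a height against the cone measure.
-/

namespace Vale.Agent.P237.Pair

open MeasureTheory Set Filter Topology Matrix
open scoped ENNReal Pointwise
open P227.Zono (Body normalAt)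

noncomputable section

variable {n k : ℕ}

/-- The radial projection to the boundary. -/
def radial (K : Set (Pt n)) (y : Pt n) : Pt n := (gauge K y)⁻¹ • y

theorem continuous_dot' (u : Pt n) : Continuous fun y : Pt n => u ⬝ᵥ y :=
  continuous_finsetSum _ fun i _ => continuous_const.mul (continuous_apply i)

theorem measurable_radial {K : Set (Pt n)} (hK : Body K) : Measurable (radial K) :=
  ((continuous_gauge hK.convex hK.nhds).measurable.inv).smul measurable_id

theorem radial_smul {K : Set (Pt n)} (hK : Body K) {c : ℝ} (hc : 0 < c) (y : Pt n) :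
    radial K (c • y) = radial K y := by
  rw [radial, radial, hK.gauge_smul hc.le, mul_inv, smul_smul, mul_comm c⁻¹, mul_assoc,
    inv_mul_cancel₀ hc.ne', mul_one]

theorem normalAt_smul {K : Set (Pt n)} {c : ℝ} (hc : 0 < c) (y : Pt n) :
    normalAt K (c • y) = normalAt K y := by
  funext j
  have e : fderiv ℝ (fun z => gauge K (c • z)) y = c • fderiv ℝ (gauge K) (c • y) := fderiv_comp_smul c
  have e2 : (fun z : Pt n => gauge K (c • z)) = c • gauge K := by
    funext z
    rw [gauge_smul_of_nonneg hc.le]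
    rfl
  rw [e2, fderiv_const_smul_field] at e
  have e3 : fderiv ℝ (gauge K) (c • y) = fderiv ℝ (gauge K) y :=
    (smul_right_injective _ hc.ne' e).symm
  rw [normalAt, normalAt, e3]

/-- The bound of a height on the whole space. -/
theorem abs_height_le {K : Set (Pt n)} (hK : Body K) {w : Pt n}
    (hw : ∀ z, w ⬝ᵥ z ≤ gauge K z) (z : Pt n) : |w ⬝ᵥ z| ≤ gauge K z := by
  refine abs_le.2 ⟨?_, hw z⟩
  have h := hw (-z)
  rw [dotProduct_neg, gauge_neg hK.neg_mem] at h
  linarith

theorem abs_radial_height_le {K : Set (Pt n)} (hK : Body K) {w : Pt n}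
    (hw : ∀ z, w ⬝ᵥ z ≤ gauge K z) (y : Pt n) : |w ⬝ᵥ radial K y| ≤ 1 := by
  refine (abs_height_le hK hw _).trans ?_
  rw [radial, hK.gauge_smul (inv_nonneg.2 (gauge_nonneg y))]
  exact inv_mul_le_one_of_le₀ le_rfl (gauge_nonneg y)

theorem ae_good {K : Set (Pt n)} (hK : Body K) : ∀ᵐ x : Pt n,
    (∀ z, normalAt K x ⬝ᵥ z ≤ gauge K z) ∧
      (gauge K x ≠ 0 → normalAt K x ⬝ᵥ radial K x = 1) := by
  filter_upwards [hK.ae_differentiable] with x hd
  refine ⟨hK.dot_le_gauge hd, fun h => ?_⟩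
  rw [radial, dotProduct_smul, hK.dot_self hd, smul_eq_mul, inv_mul_cancel₀ h]

/-- A bounded extension of a function with continuous derivative on an interval. -/
theorem exists_extension {a a1 : ℝ → ℝ} (hd : ∀ s ∈ Icc (-1 : ℝ) 1, HasDerivAt a (a1 s) s)
    (hc : ContinuousOn a1 (Icc (-1) 1)) :
    ∃ (b b1 : ℝ → ℝ) (M : ℝ), (∀ s, HasDerivAt b (b1 s) s) ∧ Continuous b1 ∧
      (∀ s, |b s| ≤ M) ∧ (∀ s, |b1 s| ≤ M) ∧ ∀ s ∈ Icc (-1 : ℝ) 1, b s = a s ∧ b1 s = a1 s := by
  set tent : ℝ → ℝ := fun s => max 0 (min 1 (2 - |s|)) with htent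
  set h : ℝ → ℝ := fun s => tent s * IccExtend (by norm_num : (-1 : ℝ) ≤ 1) ((Icc (-1) 1).domRestrict a1) s
  have hhc : Continuous h := (by fun_prop : Continuous tent).mul hc.domRestrict.Icc_extend'
  have hs : HasCompactSupport h := HasCompactSupport.intro (isCompact_Icc (a := (-2 : ℝ)) (b := 2))
    fun s hs => by
      have h2 : 2 ≤ |s| := by
        by_contra h'
        exact hs ⟨by linarith [(abs_lt.1 (not_le.1 h')).1], by linarith [(abs_lt.1 (not_le.1 h')).2]⟩
      simp [h, htent, min_eq_right (show 2 - |s| ≤ (1 : ℝ) by linarith),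
        max_eq_left (show 2 - |s| ≤ (0 : ℝ) by linarith)]
  have hi : Integrable h := hhc.integrable_of_hasCompactSupport hs
  obtain ⟨M1, hM1⟩ := hhc.bounded_above_of_compact_support hs
  set b : ℝ → ℝ := fun s => a 0 + ∫ u in (0 : ℝ)..s, h u with hb
  set M : ℝ := max M1 (|a 0| + ∫ u, |h u|)
  have hin : ∀ s ∈ Icc (-1 : ℝ) 1, h s = a1 s := fun s hs => by
    have h1 : 1 ≤ 2 - |s| := by linarith [abs_le.2 hs]
    simp [h, htent, min_eq_left h1, IccExtend_of_mem _ _ hs]
  refine ⟨b, h, M, fun s => (hhc.integral_hasStrictDerivAt 0 s).hasDerivAt.const_add _, hhc,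
    fun s => ?_, fun s => (Real.norm_eq_abs _ ▸ hM1 s).trans (le_max_left _ _), fun s hs => ⟨?_, hin s hs⟩⟩
  · refine le_trans ((abs_add_le _ _).trans (add_le_add le_rfl ?_)) (le_max_right _ _)
    refine ((Real.norm_eq_abs _).symm.le.trans intervalIntegral.norm_integral_le_integral_norm_uIoc).trans ?_
    exact setIntegral_le_integral hi.norm (Eventually.of_forall fun u => norm_nonneg _)
  · have hsub : uIcc (0 : ℝ) s ⊆ Icc (-1) 1 :=
      uIcc_subset_Icc ⟨by norm_num, by norm_num⟩ hs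
    rw [hb]
    show a 0 + ∫ u in (0 : ℝ)..s, h u = a s
    rw [intervalIntegral.integral_eq_sub_of_hasDerivAt
      (fun u hu => (hin u (hsub hu)).symm ▸ hd u (hsub hu)) (hhc.intervalIntegrable _ _)]
    ring

variable {K : Set (Pt (k + 2))}

/-- Powers of the gauge against a function that is constant on rays. -/
theorem integral_mul_gauge_pow (hK : Body K) {Φ : Pt (k + 2) → ℝ} (hΦm : Measurable Φ) {M : ℝ}
    (hM : ∀ y, |Φ y| ≤ M) (hhom : ∀ c : ℝ, 0 < c → ∀ y, Φ (c • y) = Φ y) (m : ℕ) :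
    ((k : ℝ) + 2 + m) * ∫ y in K, Φ y * gauge K y ^ m = ((k : ℝ) + 2) * ∫ y in K, Φ y := by
  rcases m with _ | m
  · simp
  have hM0 : 0 ≤ M := (abs_nonneg _).trans (hM 0)
  have hg : Continuous (gauge K) := continuous_gauge hK.convex hK.nhds
  have hint : ∀ (Ψ : Pt (k + 2) → ℝ), Measurable Ψ → (∃ C, ∀ y, |Ψ y| ≤ C) →
      ∀ j : ℕ, IntegrableOn (fun y => Ψ y * gauge K y ^ j) K := by
    intro Ψ hΨ ⟨C, hC⟩ j
    exact IntegrableOn.mul_continuousOn (Measure.integrableOn_of_bounded
      hK.compact.measure_lt_top.ne hΨ.aestronglyMeasurable (Eventually.of_forall hC))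
      (hg.pow j).continuousOn hK.compact
  -- the case of a nonnegative function
  have key : ∀ (Ψ : Pt (k + 2) → ℝ), Measurable Ψ → (∀ y, 0 ≤ Ψ y) → (∀ y, Ψ y ≤ 2 * M) →
      (∀ c : ℝ, 0 < c → ∀ y, Ψ (c • y) = Ψ y) →
      ((k : ℝ) + 2 + (m + 1 : ℕ)) * ∫ y in K, Ψ y * gauge K y ^ (m + 1)
        = ((k : ℝ) + 2) * ∫ y in K, Ψ y := by
    intro Ψ hΨ h0 hle hh
    set w : ℝ → ℝ := fun l => (Iic (1 : ℝ)).indicator (fun l => ((m : ℝ) + 1) * l ^ m) l
    have hlay := AllN.lintegral_layers hK (w := fun l => ENNReal.ofReal (w l))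
      ((((measurable_id.pow_const m).const_mul ((m : ℝ) + 1)).indicator measurableSet_Iic).ennreal_ofReal)
      (Φ := fun y => ENNReal.ofReal (Ψ y)) hΨ.ennreal_ofReal
    have htail : ∀ g : ℝ, 0 ≤ g → ∫⁻ l in Ioi g, ENNReal.ofReal (w l)
        = ENNReal.ofReal (1 - min g 1 ^ (m + 1)) := by
      intro g hg0
      have e : ∀ l, ENNReal.ofReal (w l)
          = (Iic (1 : ℝ)).indicator (fun l => ENNReal.ofReal (((m : ℝ) + 1) * l ^ m)) l := fun l => by
        by_cases hl : l ≤ 1 <;> simp [w, hl]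
      simp only [e]
      rw [lintegral_indicator measurableSet_Iic, Measure.restrict_restrict measurableSet_Iic,
        inter_comm, Ioi_inter_Iic]
      rcases le_total 1 g with h | h
      · rw [Ioc_eq_empty (not_lt.2 h), setLIntegral_empty, min_eq_right h, one_pow, sub_self,
          ENNReal.ofReal_zero]
      rw [min_eq_left h, ← ofReal_integral_eq_lintegral_ofReal]
      · congr 1
        rw [← intervalIntegral.integral_of_le h, intervalIntegral.integral_const_mul, integral_pow,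
          one_pow]
        field_simp
      · exact (by fun_prop : Continuous fun l : ℝ => ((m : ℝ) + 1) * l ^ m).continuousOn
          |>.integrableOn_Icc.mono_set Ioc_subset_Icc_self
      · filter_upwards [ae_restrict_mem measurableSet_Ioc] with l hl
        have : 0 ≤ l := hg0.trans hl.1.le
        positivity
    have hscale : ∀ l : ℝ, 0 < l → ∫⁻ y in l • K, ENNReal.ofReal (Ψ y)
        = ENNReal.ofReal (l ^ (k + 2)) * ∫⁻ y in K, ENNReal.ofReal (Ψ y) := by
      intro l hl
      have h := Measure.map_addHaar_smul (volume : Measure (Pt (k + 2))) hl.ne'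
      rw [Module.finrank_fin_fun, abs_of_pos (inv_pos.2 (pow_pos hl _))] at h
      have hms : MeasurableSet (l • K) := (hK.compact.smul l).isClosed.measurableSet
      have h2 : ∫⁻ y, (l • K).indicator (fun y => ENNReal.ofReal (Ψ y)) (l • y)
          = ENNReal.ofReal (l ^ (k + 2))⁻¹ * ∫⁻ y in l • K, ENNReal.ofReal (Ψ y) := by
        rw [← lintegral_map (hΨ.ennreal_ofReal.indicator hms) (measurable_const_smul l), h,
          lintegral_smul_measure, lintegral_indicator hms, smul_eq_mul]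
      have h3 : (fun y => (l • K).indicator (fun y => ENNReal.ofReal (Ψ y)) (l • y))
          = K.indicator fun y => ENNReal.ofReal (Ψ y) := by
        funext y
        by_cases hy : y ∈ K
        · rw [indicator_of_mem hy, indicator_of_mem (smul_mem_smul_set hy), hh l hl]
        · rw [indicator_of_notMem hy, indicator_of_notMem (mt (smul_mem_smul_set_iff₀ hl.ne' K y).1 hy)]
      rw [h3, lintegral_indicator hK.compact.measurableSet] at h2
      rw [h2, ← mul_assoc, ← ENNReal.ofReal_mul (pow_nonneg hl.le _),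
        mul_inv_cancel₀ (pow_pos hl _).ne', ENNReal.ofReal_one, one_mul]
    have hIlt : ∫⁻ y in K, ENNReal.ofReal (Ψ y) < ∞ := by
      refine lt_of_le_of_lt (setLIntegral_mono measurable_const fun y _ =>
        ENNReal.ofReal_le_ofReal (hle y)) ?_
      rw [setLIntegral_const]
      exact ENNReal.mul_lt_top ENNReal.ofReal_lt_top hK.compact.measure_lt_top
    have hR : ∫⁻ l in Ioi (0 : ℝ), ENNReal.ofReal (w l) * ∫⁻ y in l • K, ENNReal.ofReal (Ψ y)
        = ENNReal.ofReal (((m : ℝ) + 1) / (k + 2 + (m + 1))) * ∫⁻ y in K, ENNReal.ofReal (Ψ y) := by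
      rw [setLIntegral_congr_fun measurableSet_Ioi (g := fun l => (Iic (1 : ℝ)).indicator
        (fun l => ENNReal.ofReal (((m : ℝ) + 1) * l ^ (m + (k + 2)))) l
          * ∫⁻ y in K, ENNReal.ofReal (Ψ y)) fun l (hl : 0 < l) => ?_]
      · rw [lintegral_mul_const' _ _ hIlt.ne, lintegral_indicator measurableSet_Iic,
          Measure.restrict_restrict measurableSet_Iic, inter_comm, Ioi_inter_Iic,
          ← ofReal_integral_eq_lintegral_ofReal]
        · congr 2
          rw [← intervalIntegral.integral_of_le zero_le_one, intervalIntegral.integral_const_mul,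
            integral_pow]
          push_cast
          simp
          ring
        · exact (by fun_prop : Continuous fun l : ℝ => ((m : ℝ) + 1) * l ^ (m + (k + 2))).continuousOn
            |>.integrableOn_Icc.mono_set Ioc_subset_Icc_self
        · filter_upwards [ae_restrict_mem measurableSet_Ioc] with l hl
          have := hl.1.le
          positivity
      · show _ = _
        simp only [hscale l hl]
        by_cases h1 : l ≤ 1
        · simp only [w, indicator_of_mem (show l ∈ Iic (1 : ℝ) from h1)]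
          rw [← mul_assoc, ← ENNReal.ofReal_mul (by positivity)]
          congr 2
          rw [mul_assoc, ← pow_add]
        · simp [w, h1]
    have hL : ∫⁻ y, ENNReal.ofReal (Ψ y) * ∫⁻ l in Ioi (gauge K y), ENNReal.ofReal (w l)
        = ENNReal.ofReal (∫ y in K, Ψ y * (1 - gauge K y ^ (m + 1))) := by
      simp only [htail _ (gauge_nonneg _)]
      have hi : IntegrableOn (fun y => Ψ y * (1 - gauge K y ^ (m + 1))) K := by
        have := (hint Ψ hΨ ⟨2 * M, fun y => by rw [abs_of_nonneg (h0 y)]; exact hle y⟩ 0).sub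
          (hint Ψ hΨ ⟨2 * M, fun y => by rw [abs_of_nonneg (h0 y)]; exact hle y⟩ (m + 1))
        simpa [mul_sub, Pi.sub_def] using this
      rw [ofReal_integral_eq_lintegral_ofReal hi]
      · rw [← lintegral_indicator hK.compact.measurableSet]
        refine lintegral_congr fun y => ?_
        by_cases hy : y ∈ K
        · rw [indicator_of_mem hy, min_eq_left (hK.gauge_le_one.2 hy), ENNReal.ofReal_mul (h0 y)]
        · rw [indicator_of_notMem hy,
            min_eq_right (le_of_lt (not_le.1 fun h => hy (hK.gauge_le_one.1 h))), one_pow, sub_self,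
            ENNReal.ofReal_zero, mul_zero]
      · filter_upwards [ae_restrict_mem hK.compact.measurableSet] with y hy
        have := pow_le_one₀ (n := m + 1) (gauge_nonneg y) (hK.gauge_le_one.2 hy)
        exact mul_nonneg (h0 y) (by linarith)
    rw [hL, hR, ← ofReal_integral_eq_lintegral_ofReal
        (by simpa [IntegrableOn] using hint Ψ hΨ ⟨2 * M, fun y => by rw [abs_of_nonneg (h0 y)]; exact hle y⟩ 0)
        (Eventually.of_forall h0), ← ENNReal.ofReal_mul (by positivity),
      ENNReal.ofReal_eq_ofReal_iff (setIntegral_nonneg hK.compact.measurableSet fun y hy => ?_)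
        (mul_nonneg (by positivity) (setIntegral_nonneg hK.compact.measurableSet fun y _ => h0 y))] at hlay
    · have i0 := hint Ψ hΨ ⟨2 * M, fun y => by rw [abs_of_nonneg (h0 y)]; exact hle y⟩ 0
      have i1 := hint Ψ hΨ ⟨2 * M, fun y => by rw [abs_of_nonneg (h0 y)]; exact hle y⟩ (m + 1)
      simp only [pow_zero, mul_one] at i0
      simp only [mul_sub, mul_one] at hlay
      rw [integral_sub i0 i1] at hlay
      field_simp at hlay
      push_cast
      linarith
    · have := pow_le_one₀ (n := m + 1) (gauge_nonneg y) (hK.gauge_le_one.2 hy)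
      exact mul_nonneg (h0 y) (by linarith)
  have h1 := key (fun y => Φ y + M) (hΦm.add_const M) (fun y => by linarith [(abs_le.1 (hM y)).1])
    (fun y => by linarith [(abs_le.1 (hM y)).2]) fun c hc y => by simp [hhom c hc y]
  have h2 := key (fun _ => M) measurable_const (fun _ => hM0) (fun _ => by linarith) fun _ _ _ => rfl
  have iΦ := hint Φ hΦm ⟨M, hM⟩
  have iM := hint (fun _ => M) measurable_const ⟨M, fun _ => le_of_eq (abs_of_nonneg hM0)⟩
  simp only [add_mul] at h1
  rw [integral_add (iΦ (m + 1)) (iM (m + 1))] at h1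
  have i0 := iΦ 0
  have j0 := iM 0
  simp only [pow_zero, mul_one] at i0 j0
  rw [integral_add i0 j0] at h1
  push_cast at h1 h2 ⊢
  linarith

theorem integrableOn_bounded (hK : Body K) {F : Pt (k + 2) → ℝ} (hF : Measurable F) {C : ℝ}
    (hC : ∀ᵐ y, y ∈ K → |F y| ≤ C) : IntegrableOn F K :=
  Measure.integrableOn_of_bounded hK.compact.measure_lt_top.ne hF.aestronglyMeasurable
    ((ae_restrict_iff' hK.compact.measurableSet).2 hC)

/-- The weights `(m + 1) N ^ (m + d)` tend to `n` times the cone measure. -/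
theorem tendsto_cone (hK : Body K) {g g1 : ℝ → ℝ} {M : ℝ} (hg : ∀ s, HasDerivAt g (g1 s) s)
    (hg0 : ∀ s, |g s| ≤ M) (hg1 : ∀ s, |g1 s| ≤ M) {w : Pt (k + 2)}
    (hw : ∀ z, w ⬝ᵥ z ≤ gauge K z) {B : Pt (k + 2) → ℝ} (hBm : Measurable B) {C : ℝ}
    (hB : ∀ y, |B y| ≤ C) (hBh : ∀ c : ℝ, 0 < c → ∀ y, B (c • y) = B y) (d : ℕ) :
    Tendsto (fun m : ℕ => ∫ y in K, g (w ⬝ᵥ y) * (((m : ℝ) + 1) * gauge K y ^ (m + d)) * B y)
      atTop (𝓝 (((k : ℝ) + 2) * ∫ y in K, g (w ⬝ᵥ radial K y) * B y)) := by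
  have hgc : Continuous g := continuous_iff_continuousAt.2 fun t => (hg t).continuousAt
  have hM : 0 ≤ M := (abs_nonneg _).trans (hg0 0)
  have hC : 0 ≤ C := (abs_nonneg _).trans (hB 0)
  have hN : Continuous (gauge K) := continuous_gauge hK.convex hK.nhds
  set Φ : Pt (k + 2) → ℝ := fun y => g (w ⬝ᵥ radial K y) * B y
  have hΦm : Measurable Φ :=
    ((hgc.measurable.comp ((continuous_dot' w).measurable.comp (measurable_radial hK))).mul hBm)
  have hΦb : ∀ y, |Φ y| ≤ M * C := fun y => by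
    rw [abs_mul]; exact mul_le_mul (hg0 _) (hB y) (abs_nonneg _) hM
  have hΦh : ∀ c : ℝ, 0 < c → ∀ y, Φ (c • y) = Φ y := fun c hc y => by
    simp only [Φ, radial_smul hK hc, hBh c hc]
  set I := ∫ y in K, Φ y
  set V := (volume K).toReal
  set n0 : ℝ := (k : ℝ) + 2
  have hn0 : 0 < n0 := by positivity
  have hj : ∀ j : ℕ, (n0 + j) * ∫ y in K, Φ y * gauge K y ^ j = n0 * I := fun j =>
    integral_mul_gauge_pow hK hΦm hΦb hΦh j
  have hv : ∀ j : ℕ, ∫ y in K, gauge K y ^ j = n0 * V / (n0 + j) := fun j => by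
    have h := integral_mul_gauge_pow hK (Φ := fun _ => (1 : ℝ)) measurable_const (M := 1)
      (fun _ => by simp) (fun _ _ _ => rfl) j
    simp only [one_mul, setIntegral_const, smul_eq_mul, mul_one] at h
    rw [eq_div_iff (by positivity), mul_comm]
    exact h
  have hlim : Tendsto (fun m : ℕ => ((m : ℝ) + 1) * (n0 / (n0 + ((m + d : ℕ) : ℝ)))) atTop (𝓝 n0) := by
    have h := (((tendsto_natCast_div_add_atTop (n0 + d - 1)).comp (tendsto_add_atTop_nat 1))).const_mul n0
    rw [mul_one] at h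
    refine h.congr fun m => ?_
    simp only [Function.comp_apply, Nat.cast_add, Nat.cast_one]
    rw [show (m : ℝ) + 1 + (n0 + d - 1) = n0 + (m + d) by ring]
    ring
  have hmain : Tendsto (fun m : ℕ => ((m : ℝ) + 1) * ∫ y in K, Φ y * gauge K y ^ (m + d))
      atTop (𝓝 (n0 * I)) := by
    refine ((hlim.mul_const I)).congr fun m => ?_
    have h := hj (m + d)
    have h0 : (0 : ℝ) < n0 + ((m + d : ℕ) : ℝ) := by positivity
    rw [show ∫ y in K, Φ y * gauge K y ^ (m + d) = n0 * I / (n0 + ((m + d : ℕ) : ℝ)) from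
      (eq_div_iff h0.ne').2 (by rw [mul_comm]; exact h)]
    ring
  have herr : Tendsto (fun m : ℕ => ((m : ℝ) + 1) * (M * C) *
      ∫ y in K, gauge K y ^ (m + d) * (1 - gauge K y)) atTop (𝓝 0) := by
    have h1 : Tendsto (fun m : ℕ => ((m : ℝ) + 1) * (n0 / (n0 + ((m + d : ℕ) : ℝ)))
        * (M * C * V) * (n0 + ((m + d : ℕ) : ℝ) + 1)⁻¹) atTop (𝓝 0) := by
      have h2 : Tendsto (fun m : ℕ => (n0 + ((m + d : ℕ) : ℝ) + 1)⁻¹) atTop (𝓝 0) :=
        tendsto_inv_atTop_zero.comp (tendsto_atTop_add_const_right _ _ (tendsto_atTop_add_const_left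
          _ _ (tendsto_natCast_atTop_atTop.comp (tendsto_add_atTop_nat d))))
      simpa using (hlim.mul_const (M * C * V)).mul h2
    refine h1.congr fun m => ?_
    have e : ∀ y, gauge K y ^ (m + d) * (1 - gauge K y)
        = gauge K y ^ (m + d) - gauge K y ^ (m + d + 1) := fun y => by ring
    simp only [e]
    rw [integral_sub ((hN.fun_pow _).continuousOn.integrableOn_compact hK.compact)
      ((hN.fun_pow _).continuousOn.integrableOn_compact hK.compact), hv, hv]
    push_cast
    have : (0 : ℝ) < n0 + (m + d) := by positivity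
    field_simp
    ring
  rw [← sub_zero (n0 * I)] at *
  have hdiff : Tendsto (fun m : ℕ => (∫ y in K, g (w ⬝ᵥ y) * (((m : ℝ) + 1) * gauge K y ^ (m + d)) * B y)
      - ((m : ℝ) + 1) * ∫ y in K, Φ y * gauge K y ^ (m + d)) atTop (𝓝 0) := by
    refine squeeze_zero_norm (fun m => ?_) herr
    have iA : IntegrableOn (fun y => g (w ⬝ᵥ y) * (((m : ℝ) + 1) * gauge K y ^ (m + d)) * B y) K :=
      IntegrableOn.continuousOn_mul
        ((hgc.comp (continuous_dot' w)).mul (continuous_const.mul (hN.pow _))).continuousOn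
        (integrableOn_bounded hK hBm (Eventually.of_forall fun y _ => hB y)) hK.compact
    have iB : IntegrableOn (fun y => ((m : ℝ) + 1) * (Φ y * gauge K y ^ (m + d))) K :=
      (IntegrableOn.mul_continuousOn (integrableOn_bounded hK hΦm
        (Eventually.of_forall fun y _ => hΦb y)) (hN.pow _).continuousOn hK.compact).const_mul _
    rw [← integral_const_mul, ← integral_sub iA iB, ← integral_const_mul]
    refine norm_integral_le_of_norm_le (((((hN.pow _).mul (continuous_const.sub hN)).const_mul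
      _).continuousOn.integrableOn_compact hK.compact)) ?_
    filter_upwards [ae_restrict_mem hK.compact.measurableSet] with y hy
    have hy1 := hK.gauge_le_one.2 hy
    have hy0 := gauge_nonneg (s := K) y
    have hlip : |g (w ⬝ᵥ y) - g (w ⬝ᵥ radial K y)| ≤ M * (1 - gauge K y) := by
      have hl : LipschitzWith (Real.toNNReal M) g :=
        lipschitzWith_of_nnnorm_deriv_le (fun t => (hg t).differentiableAt) fun t => by
          rw [(hg t).deriv, ← NNReal.coe_le_coe, coe_nnnorm, Real.norm_eq_abs]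
          exact (hg1 t).trans (Real.le_coe_toNNReal M)
      have h := hl.dist_le_mul (w ⬝ᵥ y) (w ⬝ᵥ radial K y)
      rw [Real.dist_eq, Real.dist_eq, Real.coe_toNNReal _ hM] at h
      refine h.trans (mul_le_mul_of_nonneg_left ?_ hM)
      rcases eq_or_ne y 0 with rfl | hne
      · simp [radial]
      have hp := hK.gauge_pos' hne
      have e : w ⬝ᵥ y = gauge K y * (w ⬝ᵥ radial K y) := by
        rw [radial, dotProduct_smul, smul_eq_mul, ← mul_assoc, mul_inv_cancel₀ hp.ne', one_mul]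
      rw [e, show gauge K y * (w ⬝ᵥ radial K y) - w ⬝ᵥ radial K y
        = -((1 - gauge K y) * (w ⬝ᵥ radial K y)) by ring, abs_neg, abs_mul,
        abs_of_nonneg (sub_nonneg.2 hy1)]
      exact mul_le_of_le_one_right (sub_nonneg.2 hy1) (abs_radial_height_le hK hw y)
    rw [Real.norm_eq_abs, show g (w ⬝ᵥ y) * (((m : ℝ) + 1) * gauge K y ^ (m + d)) * B y
        - ((m : ℝ) + 1) * (Φ y * gauge K y ^ (m + d))
      = (((m : ℝ) + 1) * gauge K y ^ (m + d)) * ((g (w ⬝ᵥ y) - g (w ⬝ᵥ radial K y)) * B y) by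
        simp only [Φ]; ring, abs_mul, abs_mul (g _ - g _),
      abs_of_nonneg (show 0 ≤ ((m : ℝ) + 1) * gauge K y ^ (m + d) by positivity)]
    calc ((m : ℝ) + 1) * gauge K y ^ (m + d) * (|g (w ⬝ᵥ y) - g (w ⬝ᵥ radial K y)| * |B y|)
        ≤ ((m : ℝ) + 1) * gauge K y ^ (m + d) * (M * (1 - gauge K y) * C) :=
          mul_le_mul_of_nonneg_left (mul_le_mul hlip (hB y) (abs_nonneg _)
            (mul_nonneg hM (sub_nonneg.2 hy1))) (by positivity)
      _ = ((m : ℝ) + 1) * (M * C) * (gauge K y ^ (m + d) * (1 - gauge K y)) := by ring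
  simpa using hdiff.add hmain

/-- The cone measure against a function of a height. -/
theorem cone_radial (hK : Body K) {w : Pt (k + 2)} (hw : ∀ z, w ⬝ᵥ z ≤ gauge K z)
    {a a1 : ℝ → ℝ} (hd : ∀ s ∈ Icc (-1 : ℝ) 1, HasDerivAt a (a1 s) s)
    (hc : ContinuousOn a1 (Icc (-1) 1)) :
    ∫ y in K, (((k : ℝ) + 2) * a (w ⬝ᵥ y) + (w ⬝ᵥ y) * a1 (w ⬝ᵥ y))
      = ((k : ℝ) + 2) * ∫ y in K, a (w ⬝ᵥ radial K y) := by
  obtain ⟨b, b1, M, hb, hb1, hM, hM1, he⟩ := exists_extension hd hc
  have hin : ∀ y ∈ K, w ⬝ᵥ y ∈ Icc (-1 : ℝ) 1 := fun y hy =>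
    abs_le.1 ((abs_height_le hK hw y).trans (hK.gauge_le_one.2 hy))
  rw [setIntegral_congr_fun hK.compact.measurableSet fun y hy => show
      ((k : ℝ) + 2) * a (w ⬝ᵥ y) + (w ⬝ᵥ y) * a1 (w ⬝ᵥ y)
        = ((k : ℝ) + 2) * b (w ⬝ᵥ y) + (w ⬝ᵥ y) * b1 (w ⬝ᵥ y) by
      rw [(he _ (hin y hy)).1, (he _ (hin y hy)).2],
    setIntegral_congr_fun hK.compact.measurableSet (f := fun y => a (w ⬝ᵥ radial K y))
      (g := fun y => b (w ⬝ᵥ radial K y)) fun y _ =>
      ((he _ (abs_le.1 (abs_radial_height_le hK hw y))).1).symm]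
  have hbc : Continuous b := continuous_iff_continuousAt.2 fun t => (hb t).continuousAt
  have hdot := continuous_dot' (n := k + 2) w
  have hF : Continuous fun y : Pt (k + 2) =>
      ((k : ℝ) + 2) * b (w ⬝ᵥ y) + (w ⬝ᵥ y) * b1 (w ⬝ᵥ y) := by fun_prop
  refine tendsto_nhds_unique ((AllN.tendsto_cutoff_integral hK hF).comp (tendsto_add_atTop_nat 1)) ?_
  have hlim := tendsto_cone hK hb hM hM1 hw (B := fun _ => 1) measurable_const (C := 1)
    (fun _ => by simp) (fun _ _ _ => rfl) 1
  simp only [mul_one] at hlim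
  refine hlim.congr fun m => ?_
  simp only [Function.comp_apply]
  have hcg : Continuous (gauge K) := continuous_gauge hK.convex hK.nhds
  have sq : ∀ (c : ℝ), ∫ y in K, (((k + 2 : ℕ) : ℝ) * (b (w ⬝ᵥ y) + c) ^ 2
      + 2 * (w ⬝ᵥ y) * (b (w ⬝ᵥ y) + c) * b1 (w ⬝ᵥ y)) * (1 - gauge K y ^ (m + 1))
      = ((m + 1 : ℕ) : ℝ) * ∫ y in K, (b (w ⬝ᵥ y) + c) ^ 2 * gauge K y ^ (m + 1) := fun c =>
    AllN.ibp_radial hK (Nat.succ_pos m) w (a := fun t => b t + c) (a1 := b1) (M := M + |c|)
      (fun t => (hb t).add_const c) hb1 (fun t => (abs_add_le _ _).trans (by linarith [hM t]))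
      fun t => (hM1 t).trans (le_add_of_nonneg_right (abs_nonneg c))
  have one := AllN.ibp_radial hK (Nat.succ_pos m) w (a := fun _ => (1 : ℝ)) (a1 := fun _ => 0)
    (M := 1) (fun t => hasDerivAt_const t 1) continuous_const (fun t => by simp) fun t => by simp
  have h0 := sq 0
  have h1 := sq 1
  push_cast at h0 h1 one
  have cL : ∀ {F : Pt (k + 2) → ℝ}, Continuous F → IntegrableOn F K := fun hF =>
    hF.continuousOn.integrableOn_compact hK.compact
  set nn : ℝ := (k : ℝ) + 2
  have eL : ∀ y, (nn * b (w ⬝ᵥ y) + (w ⬝ᵥ y) * b1 (w ⬝ᵥ y)) * (1 - gauge K y ^ (m + 1))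
      = (1 / 2 : ℝ) * ((nn * (b (w ⬝ᵥ y) + 1) ^ 2
          + 2 * (w ⬝ᵥ y) * (b (w ⬝ᵥ y) + 1) * b1 (w ⬝ᵥ y)) * (1 - gauge K y ^ (m + 1))
        - (nn * (b (w ⬝ᵥ y) + 0) ^ 2
          + 2 * (w ⬝ᵥ y) * (b (w ⬝ᵥ y) + 0) * b1 (w ⬝ᵥ y)) * (1 - gauge K y ^ (m + 1))
        - (nn * 1 ^ 2 + 2 * (w ⬝ᵥ y) * 1 * 0) * (1 - gauge K y ^ (m + 1))) := fun y => by ring
  have eR : ∀ y, b (w ⬝ᵥ y) * (((m : ℝ) + 1) * gauge K y ^ (m + 1))
      = (1 / 2 : ℝ) * (((m : ℝ) + 1) * ((b (w ⬝ᵥ y) + 1) ^ 2 * gauge K y ^ (m + 1))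
        - ((m : ℝ) + 1) * ((b (w ⬝ᵥ y) + 0) ^ 2 * gauge K y ^ (m + 1))
        - ((m : ℝ) + 1) * (1 ^ 2 * gauge K y ^ (m + 1))) := fun y => by ring
  simp only [eL, eR]
  rw [integral_const_mul, integral_const_mul, integral_sub, integral_sub, integral_sub, integral_sub,
    h0, h1, one, integral_const_mul, integral_const_mul, integral_const_mul]
  all_goals exact cL (by fun_prop)

/-- The cone measure against a function of a height times the slope along `v`. -/
theorem cone_dir (hK : Body K) {w : Pt (k + 2)} (hw : ∀ z, w ⬝ᵥ z ≤ gauge K z) (v : Pt (k + 2))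
    {a a1 : ℝ → ℝ} (hd : ∀ s ∈ Icc (-1 : ℝ) 1, HasDerivAt a (a1 s) s)
    (hc : ContinuousOn a1 (Icc (-1) 1)) :
    (w ⬝ᵥ v) * ∫ y in K, a1 (w ⬝ᵥ y)
      = ((k : ℝ) + 2) * ∫ y in K, a (w ⬝ᵥ radial K y) * (normalAt K y ⬝ᵥ v) := by
  obtain ⟨b, b1, M, hb, hb1, hM, hM1, he⟩ := exists_extension hd hc
  have hin : ∀ y ∈ K, w ⬝ᵥ y ∈ Icc (-1 : ℝ) 1 := fun y hy =>
    abs_le.1 ((abs_height_le hK hw y).trans (hK.gauge_le_one.2 hy))
  rw [setIntegral_congr_fun hK.compact.measurableSet fun y hy => ((he _ (hin y hy)).2).symm,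
    setIntegral_congr_fun hK.compact.measurableSet
      (f := fun y => a (w ⬝ᵥ radial K y) * (normalAt K y ⬝ᵥ v))
      (g := fun y => b (w ⬝ᵥ radial K y) * (normalAt K y ⬝ᵥ v)) fun y _ => by
      simp only [(he _ (abs_le.1 (abs_radial_height_le hK hw y))).1],
    ← integral_const_mul]
  have hdot := continuous_dot' (n := k + 2) w
  obtain ⟨C, hC⟩ := hK.convex.lipschitz_gauge hK.nhds
  have hBm : Measurable fun y => normalAt K y ⬝ᵥ v := by
    simp only [P227.Zono.normalAt_dot]
    exact measurable_fderiv_apply_const ℝ _ v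
  have hB : ∀ y, |normalAt K y ⬝ᵥ v| ≤ C * ‖v‖ := fun y => by
    rw [P227.Zono.normalAt_dot, ← Real.norm_eq_abs]
    exact (ContinuousLinearMap.le_opNorm _ _).trans
      (mul_le_mul_of_nonneg_right (norm_fderiv_le_of_lipschitz ℝ hC) (norm_nonneg _))
  have hF : Continuous fun y : Pt (k + 2) => w ⬝ᵥ v * b1 (w ⬝ᵥ y) := by fun_prop
  refine tendsto_nhds_unique ((AllN.tendsto_cutoff_integral hK hF).comp (tendsto_add_atTop_nat 1)) ?_
  refine (tendsto_cone hK hb hM hM1 hw hBm hB (fun c hc y => by rw [normalAt_smul hc]) 0).congr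
    fun m => ?_
  simp only [Function.comp_apply, add_zero]
  have h := AllN.ibp_dir hK (m + 1) w v hb hM1
  push_cast [Nat.add_sub_cancel] at h
  rw [← h]
  exact integral_congr_ae (Eventually.of_forall fun y => by ring)

end

end Vale.Agent.P237.Pair
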