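import Vale.Agent.P237.W1.NormalBound

/-!
# P237: the pair inequality and the one-dimensional gate

For two points of the boundary with normals `w`, `w'` the numbers `t = w ⬝ y` and `z = w' ⬝ x` are
exchangeable under the cone measure, so an antisymmetric `F (t, z)` has mean zero; a minorant
`p t * z + q t` of `F` has a mean that only depends on the marginal of the body across `w`.
-/

namespace Vale.Agent.P237.Pair

open MeasureTheory Set
open Vale.Agent.P237.AllN (semicircle)

/-- `φ` has the integrable derivative `dφ` on `[-1, 1]`, in the absolutely continuous sense. -/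
structure Primitive (φ dφ : ℝ → ℝ) : Prop where
  integrable : IntervalIntegrable dφ volume (-1) 1
  eq : ∀ t ∈ Icc (-1 : ℝ) 1, φ t = φ 0 + ∫ s in (0 : ℝ)..t, dφ s

/-- A kernel on the square: bounded, measurable and antisymmetric. -/
structure Kernel (F : ℝ → ℝ → ℝ) : Prop where
  measurable : Measurable (Function.uncurry F)
  bounded : ∃ M : ℝ, ∀ t ∈ Icc (-1 : ℝ) 1, ∀ z ∈ Icc (-1 : ℝ) 1, |F t z| ≤ M
  swap : ∀ t z, F z t = -F t z

/-- An affine minorant of `F` in the second variable. -/
structure Minorant (F : ℝ → ℝ → ℝ) (p dp q dq : ℝ → ℝ) : Prop where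
  prim_p : Primitive p dp
  prim_q : Primitive q dq
  le : ∀ t ∈ Icc (-1 : ℝ) 1, ∀ z ∈ Icc (-1 : ℝ) 1, p t * z + q t ≤ F t z

/-- The mean of the minorant, up to a positive factor, from the slice radius. -/
noncomputable def pairValue (k : ℕ) (r dp q dq : ℝ → ℝ) : ℝ :=
  ∫ s in (-1 : ℝ)..1, r s ^ (k + 1) * (((k : ℝ) + 2) * q s + s * dq s + dp s)

/-- A slice radius: even and concave on `[-1, 1]`, nonnegative, positive inside. -/
structure SliceRadius (r : ℝ → ℝ) : Prop where
  even : ∀ t, r (-t) = r t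
  concave : ConcaveOn ℝ (Icc (-1) 1) r
  nonneg : ∀ t, 0 ≤ r t
  pos : ∀ t ∈ Ioo (-1 : ℝ) 1, 0 < r t

/-- The moment quotient of a slice radius, cleared of denominators, against the semicircle. -/
noncomputable def excess (k : ℕ) (r : ℝ → ℝ) : ℝ :=
  (∫ t in (-1 : ℝ)..1, r t ^ k) ^ (k + 1) * (∫ t in (-1 : ℝ)..1, semicircle t ^ (k + 1)) ^ k
    - (∫ t in (-1 : ℝ)..1, semicircle t ^ k) ^ (k + 1) * (∫ t in (-1 : ℝ)..1, r t ^ (k + 1)) ^ k

/-- GATE2: some kernel has, for every slice radius whose moment quotient is at most the one of the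
semicircle, minorants of nearly nonnegative value, and one of positive value if it is smaller. -/
def Gate (k : ℕ) : Prop :=
  ∃ F : ℝ → ℝ → ℝ, Kernel F ∧ ∀ r : ℝ → ℝ, SliceRadius r →
    (excess k r ≤ 0 → ∀ η : ℝ, 0 < η → ∃ p dp q dq : ℝ → ℝ,
      Minorant F p dp q dq ∧ -η ≤ pairValue k r dp q dq) ∧
    (excess k r < 0 → ∃ p dp q dq : ℝ → ℝ, Minorant F p dp q dq ∧ 0 < pairValue k r dp q dq)

end Vale.Agent.P237.Pair
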