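import Vale.Agent.P237.Pair.Reduction

/-!
# P237: the gate with the touch inequality

In addition to the kernel, a normal carries a number `m` of mean one over the body, at most the
inverse of the Fisher number of its slice radius (`TouchBound`); `1 - m` then has mean zero.
-/

namespace Vale.Agent.P237.Pair

open MeasureTheory Set Function Filter
open Vale.Agent.P237.AllN (profileArea)
open Full (Cvx)

variable {k : ℕ}

/-- `m` is at most the inverse of the Fisher number of `r`, tested against every `φ`. -/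
def TouchBound (k : ℕ) (r : ℝ → ℝ) (m : ℝ) : Prop :=
  0 ≤ m ∧ ∀ φ dφ : ℝ → ℝ, Primitive φ dφ →
    m * (∫ s in (-1 : ℝ)..1, r s ^ (k + 1) * dφ s) ^ 2
      ≤ (∫ s in (-1 : ℝ)..1, r s ^ (k + 1))
        * ∫ s in (-1 : ℝ)..1, r s ^ (k + 1) * (((k : ℝ) + 2) * φ s ^ 2 + 2 * s * φ s * dφ s)

/-- A weight of mean one over `K` that is a touch bound at almost every normal. -/
def HasTouch (K : Set (Pt (k + 2))) : Prop :=
  ∃ m : Pt (k + 2) → ℝ, IntegrableOn m K ∧ ∫ x in K, m x = (volume K).toReal ∧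
    ∀ᵐ x ∂volume.restrict K, ∀ (r : ℝ → ℝ) (C : ℝ), 0 < C → SliceRadius r →
      (∀ᵐ s, W1.marginal K (P227.Zono.normalAt K x) s = C * profileArea (k + 1) r s) →
      TouchBound k r (m x)

/-- The value of a minorant together with `β (1 - m)`, per unit of mass. -/
noncomputable def totalValue (k : ℕ) (r dp q dq : ℝ → ℝ) (β m : ℝ) : ℝ :=
  pairValue k r dp q dq / (∫ s in (-1 : ℝ)..1, r s ^ (k + 1)) + β * (1 - m)

/-- GATE3: some kernel and some `β` have, for every slice radius whose moment quotient is at most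
the one of the semicircle and every touch bound `m` of it, minorants of nearly nonnegative total
value, and one of positive total value if the quotient is smaller. -/
def Gate3 (k : ℕ) : Prop :=
  ∃ F : ℝ → ℝ → ℝ, Kernel F ∧ ∃ β : ℝ, ∀ r : ℝ → ℝ, SliceRadius r → ∀ m : ℝ, TouchBound k r m →
    (excess k r ≤ 0 → ∀ η : ℝ, 0 < η → ∃ p dp q dq : ℝ → ℝ,
      Minorant F p dp q dq ∧ -η ≤ totalValue k r dp q dq β m) ∧
    (excess k r < 0 → ∃ p dp q dq : ℝ → ℝ,
      Minorant F p dp q dq ∧ 0 < totalValue k r dp q dq β m)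

/-- GATE2 is the case `β = 0`. -/
theorem gate3_of_gate (hG : Gate k) : Gate3 k := by
  obtain ⟨F, hF, h⟩ := hG
  refine ⟨F, hF, 0, fun r hr m _ => ?_⟩
  have hY := hr.integral_pos (k + 1)
  refine ⟨fun he η hη => ?_, fun he => ?_⟩
  · obtain ⟨p, dp, q, dq, hm, hv⟩ := (h r hr).1 he _ (mul_pos hη hY)
    refine ⟨p, dp, q, dq, hm, ?_⟩
    rw [totalValue, zero_mul, add_zero, le_div_iff₀ hY]
    linarith
  · obtain ⟨p, dp, q, dq, hm, hv⟩ := (h r hr).2 he
    exact ⟨p, dp, q, dq, hm, by rw [totalValue, zero_mul, add_zero]; positivity⟩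

/-- GATE3 gives the bound at one normal. -/
theorem normalBound_of_gate3 (hk : 1 ≤ k) (hT : ∀ K : Set (Pt (k + 2)), P227.Zono.Body K → HasTouch K)
    (hG : Gate3 k) : W1.NormalBound k := by
  obtain ⟨F, hF, β, hgate⟩ := hG
  intro K hK hle
  set μ := volume.restrict K
  have hfin : IsFiniteMeasure μ := isFiniteMeasure_restrict.2 hK.compact.measure_lt_top.ne
  obtain ⟨w, hwi, hw1, hw⟩ := hT K hK
  set H : Pt (k + 2) → Pt (k + 2) → ℝ := fun x y => F (pairHeight K x y) (pairHeight K y x)
  set V := (volume K).toReal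
  have hV : 0 < V := (Cvx.of_body hK).volume_pos
  set G : Pt (k + 2) → ℝ := fun x => ((k : ℝ) + 2) / V * (∫ y, H x y ∂μ) + β * (1 - w x)
  have hint : Integrable (uncurry H) (μ.prod μ) := by
    obtain ⟨M, hM⟩ := hF.bounded
    refine Integrable.of_bound (hF.measurable.comp ((measurable_pairHeight hK).prodMk
      ((measurable_pairHeight hK).comp measurable_swap))).aestronglyMeasurable M ?_
    filter_upwards [Measure.quasiMeasurePreserving_fst.ae (abs_pairHeight_ae hK),
      Measure.quasiMeasurePreserving_snd.ae (abs_pairHeight_ae hK)] with p h1 h2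
    exact hM _ (h1 p.2) _ (h2 p.1)
  have i1 : Integrable (fun x => ((k : ℝ) + 2) / V * (∫ y, H x y ∂μ)) μ :=
    hint.integral_prod_left.const_mul _
  have i2 : Integrable (fun x => β * (1 - w x)) μ := ((integrable_const 1).sub hwi).const_mul _
  have hzero : ∫ x, G x ∂μ = 0 := by
    have h1 : ∫ x, (∫ y, H x y ∂μ) ∂μ = ∫ p, uncurry H p ∂μ.prod μ := (integral_prod _ hint).symm
    have h2 : ∫ p, uncurry H p ∂μ.prod μ = -∫ p, uncurry H p ∂μ.prod μ := by
      conv_lhs => rw [← integral_prod_swap]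
      rw [← integral_neg]
      exact integral_congr_ae (Eventually.of_forall fun p => hF.swap _ _)
    have h3 : ∫ x, (∫ y, H x y ∂μ) ∂μ = 0 := by linarith
    simp only [G]
    rw [integral_add i1 i2, integral_const_mul, integral_const_mul,
      integral_sub (integrable_const 1) hwi, h3, mul_zero, zero_add]
    simp only [integral_const, smul_eq_mul, mul_one, measureReal_def, hw1,
      Measure.restrict_apply_univ]
    ring
  have key : ∀ᵐ x ∂μ, W1.renyiGain K (P227.Zono.normalAt K x) ≤ W1.renyiBall k →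
      0 ≤ G x ∧ (W1.renyiGain K (P227.Zono.normalAt K x) < W1.renyiBall k → 0 < G x) := by
    filter_upwards [ae_restrict_of_ae (Cvx.of_body hK).supportVal_normal,
      ae_restrict_of_ae hK.ae_differentiable,
      ae_restrict_of_ae (Measure.ae_ne volume (0 : Pt (k + 2))), hw] with x hx hd hx0 hwx hxle
    obtain ⟨r, C, hC, hr, hA, hVC⟩ := exists_sliceRadius hK hx
    obtain ⟨e1, e2⟩ := renyiGain_sub hk hC hr hA hVC
    have hY := hr.integral_pos (k + 1)
    have hn : (0 : ℝ) < (k : ℝ) + 2 := by positivity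
    have low : ∀ {p dp q dq : ℝ → ℝ}, Minorant F p dp q dq →
        totalValue k r dp q dq β (w x) ≤ G x := by
      intro p dp q dq hm
      have h := mul_le_mul_of_nonneg_left (pair_lower hK hF hx hx0 hd hr hA hm)
        (le_of_lt (div_pos hn hV))
      have e : ((k : ℝ) + 2) / V * (C / ((k : ℝ) + 2) * pairValue k r dp q dq)
          = pairValue k r dp q dq / (∫ s in (-1 : ℝ)..1, r s ^ (k + 1)) := by
        rw [show V = _ from hVC]
        field_simp
      rw [e] at h
      exact add_le_add h le_rfl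
    have hg := hgate r hr (w x) (hwx r C hC hr hA)
    refine ⟨?_, fun hlt => ?_⟩
    · refine le_of_forall_pos_le_add fun η hη => ?_
      obtain ⟨p, dp, q, dq, hm, hv⟩ := hg.1 (e1.1 hxle) η hη
      linarith [low hm]
    · obtain ⟨p, dp, q, dq, hm, hv⟩ := hg.2 (e2.1 hlt)
      exact hv.trans_le (low hm)
  have hnn : 0 ≤ᵐ[μ] G := (key.and hle).mono fun x h => (h.1 h.2).1
  have hG0 : G =ᵐ[μ] 0 := (integral_eq_zero_iff_of_nonneg_ae hnn (i1.add i2)).1 hzero
  filter_upwards [key, hle, hG0] with x h1 h2 h3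
  by_contra hlt
  exact ((h1 h2).2 (not_le.1 hlt)).ne' h3

/-- GATE3 in every dimension gives Petty's inequality with its equality cases. -/
theorem petty_of_gate3
    (hT : ∀ k, 2 ≤ k → ∀ K : Set (Pt (k + 2)), P227.Zono.Body K → HasTouch K)
    (hG : ∀ k, 2 ≤ k → Gate3 k) {n : ℕ} (hn : 3 ≤ n)
    {K : Set (EuclideanSpace ℝ (Fin n))} (hK : IsCompact K)
    (hc : Convex ℝ K) (hi : (interior K).Nonempty) :
    unitBallVolume (n - 1) ^ n * unitBallVolume n ^ (2 - (n : ℤ)) * euclVolume n K ^ (n - 1)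
        ≤ euclVolume n (projBody K) ∧
      (euclVolume n (projBody K)
          = unitBallVolume (n - 1) ^ n * unitBallVolume n ^ (2 - (n : ℤ)) * euclVolume n K ^ (n - 1) ↔
        ∃ (T : EuclideanSpace ℝ (Fin n) ≃ₗ[ℝ] EuclideanSpace ℝ (Fin n))
          (a : EuclideanSpace ℝ (Fin n)), K = (fun x => T x + a) '' Metric.closedBall 0 1) :=
  W1.petty_of_normal (fun k hk => normalBound_of_gate3 (by omega) (hT k hk) (hG k hk)) hn hK hc hi

end Vale.Agent.P237.Pair
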