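import Vale.Agent.P237.Pair.Cone
import Vale.Agent.P237.Pair.Defs

/-!
# P237: the two moment identities of the pair inequality

For `w` of support value one and `t = w ⬝ y / N y`, integrals of `φ t` and of `φ t * (∇N y ⬝ v)` over
the body only depend on the marginal of the body across `w`.
-/

namespace Vale.Agent.P237.Pair

open MeasureTheory Set Filter Topology Matrix Function
open Vale.Agent.P237.AllN (exists_reflection lastAxis lastAxis_dot_snoc measurePreserving_solid)
open P227.Zono (Body normalAt supportVal)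

variable {k : ℕ} {K : Set (Pt (k + 2))}

theorem dot_le_gauge_of_supportVal (hK : Body K) {w : Pt (k + 2)} (hw : supportVal K w = 1)
    (z : Pt (k + 2)) : w ⬝ᵥ z ≤ gauge K z :=
  hK.le_gauge_of_supportVal hw.le z

theorem ne_zero_of_supportVal (hK : Body K) {w : Pt (k + 2)} (hw : supportVal K w = 1) :
    w ≠ 0 := by
  rintro rfl
  obtain ⟨y, -, hy⟩ := Full.exists_supportVal hK.compact (Full.Cvx.of_body hK).nonempty
    (0 : Pt (k + 2))
  rw [hw, zero_dotProduct] at hy
  exact zero_ne_one hy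

/-- The marginal of a body is bounded almost everywhere. -/
theorem exists_marginal_bound (hK : Body K) {v : Pt (k + 2)} (hv : v ≠ 0) :
    ∃ C : ℝ, ∀ᵐ s, |W1.marginal K v s| ≤ C := by
  set c := √(v ⬝ᵥ v) with hcdef
  have hvv : 0 < v ⬝ᵥ v :=
    lt_of_le_of_ne (Finset.sum_nonneg fun i _ => mul_self_nonneg _)
      fun h => hv (dotProduct_self_eq_zero.1 h.symm)
  have hc : 0 < c := Real.sqrt_pos.2 hvv
  set u := c⁻¹ • v
  have hcu : c • u = v := smul_inv_smul₀ hc.ne' v
  have hu : u ⬝ᵥ u = 1 := by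
    simp only [u, smul_dotProduct, dotProduct_smul, smul_eq_mul]
    rw [← Real.mul_self_sqrt hvv.le, ← hcdef]
    field_simp
  obtain ⟨R, hR, -, hadj, hRu⟩ := exists_reflection hu
  set T : (Pt (k + 1) × ℝ) ≃ₗ[ℝ] Pt (k + 2) := (snocLin (k + 1)).trans R
  have hT : MeasurePreserving T volume volume := hR.comp (measurePreserving_snocLin (k + 1))
  have hTu : ∀ p, u ⬝ᵥ T p = p.2 := fun p => by
    show u ⬝ᵥ R (snocLin (k + 1) p) = p.2
    rw [← hadj, hRu]
    exact lastAxis_dot_snoc p.1 p.2
  obtain ⟨C, hC⟩ := AllN.sliceVol_bound (measurePreserving_solid hK T)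
  refine ⟨c⁻¹ * C, ?_⟩
  have h := W1.marginal_ae hK hT hTu hc
  rw [hcu] at h
  filter_upwards [h] with s hs
  rw [hs, abs_of_nonneg (mul_nonneg (inv_nonneg.2 hc.le) (hC _).1)]
  exact mul_le_mul_of_nonneg_left (hC _).2 (inv_nonneg.2 hc.le)

/-- Functions of a height over the body, through the marginal. -/
theorem integral_height (hK : Body K) {w : Pt (k + 2)} (hw : supportVal K w = 1) {g : ℝ → ℝ}
    (hg : Measurable g) :
    ∫ y in K, g (w ⬝ᵥ y) = ∫ s in (-1 : ℝ)..1, W1.marginal K w s * g s := by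
  have hle := dot_le_gauge_of_supportVal hK hw
  set f : Pt (k + 2) → ℝ := fun y => w ⬝ᵥ y with hf
  have hfm : Measurable f := (continuous_dot' w).measurable
  set μ := Measure.map f (volume.restrict K) with hμ
  have : IsFiniteMeasure (volume.restrict K) := isFiniteMeasure_restrict.2 hK.compact.measure_lt_top.ne
  have hac : μ ≪ volume := by
    set L : Pt (k + 2) →ₗ[ℝ] ℝ :=
      { toFun := fun y => w ⬝ᵥ y
        map_add' := dotProduct_add w
        map_smul' := fun c y => dotProduct_smul c w y }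
    have hs : Surjective L := fun s => ⟨(s / (w ⬝ᵥ w)) • w, by
      show w ⬝ᵥ ((s / (w ⬝ᵥ w)) • w) = s
      rw [dotProduct_smul, smul_eq_mul, div_mul_cancel₀]
      exact fun h => ne_zero_of_supportVal hK hw (dotProduct_self_eq_zero.1 h)⟩
    obtain ⟨c, -, hc⟩ := L.exists_map_addHaar_eq_smul_addHaar (volume : Measure (Pt (k + 2)))
      (volume : Measure ℝ) hs
    have h1 : μ ≤ Measure.map L volume := Measure.map_mono Measure.restrict_le_self hfm
    exact (h1.absolutelyContinuous).trans (hc ▸ Measure.smul_absolutelyContinuous)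
  have e : ∫ y in K, g (w ⬝ᵥ y) = ∫ y in K, (Icc (-1 : ℝ) 1).indicator g (w ⬝ᵥ y) :=
    setIntegral_congr_fun hK.compact.measurableSet fun y hy => (indicator_of_mem
      (show w ⬝ᵥ y ∈ Icc (-1 : ℝ) 1 from
        abs_le.1 ((abs_height_le hK hle y).trans (hK.gauge_le_one.2 hy))) g).symm
  have hgi : Measurable ((Icc (-1 : ℝ) 1).indicator g) := hg.indicator measurableSet_Icc
  rw [e, ← integral_map hfm.aemeasurable hgi.aestronglyMeasurable,
    ← integral_toReal_rnDeriv_mul hac, intervalIntegral.integral_of_le (by norm_num),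
    ← integral_Icc_eq_integral_Ioc, ← integral_indicator measurableSet_Icc]
  refine integral_congr_ae (Eventually.of_forall fun s => ?_)
  by_cases hs : s ∈ Icc (-1 : ℝ) 1 <;> simp [hs, W1.marginal, hμ, hf]

theorem measurable_marginal (K : Set (Pt (k + 2))) (w : Pt (k + 2)) :
    Measurable (W1.marginal K w) :=
  (Measure.measurable_rnDeriv _ _).ennreal_toReal

theorem intervalIntegrable_marginal_mul (hK : Body K) {w : Pt (k + 2)} (hw : supportVal K w = 1)
    {g : ℝ → ℝ} (hg : IntervalIntegrable g volume (-1) 1) :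
    IntervalIntegrable (fun s => W1.marginal K w s * g s) volume (-1) 1 := by
  obtain ⟨C, hC⟩ := exists_marginal_bound hK (ne_zero_of_supportVal hK hw)
  rw [intervalIntegrable_iff] at hg ⊢
  exact hg.bdd_mul (c := C) (measurable_marginal K w).aestronglyMeasurable
    (ae_restrict_of_ae (hC.mono fun s hs => by rwa [Real.norm_eq_abs]))

theorem Primitive.continuousOn {φ dφ : ℝ → ℝ} (hφ : Primitive φ dφ) :
    ContinuousOn φ (Icc (-1) 1) := by
  have h := intervalIntegral.continuousOn_primitive_interval'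
    (a := (0 : ℝ)) hφ.integrable (by rw [uIcc_of_le (by norm_num)]; constructor <;> norm_num)
  rw [uIcc_of_le (by norm_num : (-1 : ℝ) ≤ 1)] at h
  exact (continuousOn_const.add h).congr hφ.eq

theorem measurable_height_radial (hK : Body K) (w : Pt (k + 2)) :
    Measurable fun y => w ⬝ᵥ y / gauge K y :=
  (continuous_dot' w).measurable.div (continuous_gauge hK.convex hK.nhds).measurable

theorem height_radial_mem (hK : Body K) {w : Pt (k + 2)} (hw : supportVal K w = 1) (y : Pt (k + 2)) :
    w ⬝ᵥ y / gauge K y ∈ Icc (-1 : ℝ) 1 := by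
  have h := abs_radial_height_le hK (dot_le_gauge_of_supportVal hK hw) y
  rw [radial, dotProduct_smul, smul_eq_mul, mul_comm, ← div_eq_mul_inv] at h
  exact abs_le.1 h

/-- A function of the radial height times a bounded measurable weight is integrable. -/
theorem integrableOn_height_mul (hK : Body K) {w : Pt (k + 2)} (hw : supportVal K w = 1)
    {φ dφ : ℝ → ℝ} (hφ : Primitive φ dφ) {B : Pt (k + 2) → ℝ} (hB : Measurable B) {C : ℝ}
    (hC : ∀ y, |B y| ≤ C) :
    IntegrableOn (fun y => φ (w ⬝ᵥ y / gauge K y) * B y) K := by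
  obtain ⟨M, hM⟩ := isCompact_Icc.exists_bound_of_continuousOn hφ.continuousOn
  set φe := IccExtend (by norm_num : (-1 : ℝ) ≤ 1) ((Icc (-1) 1).domRestrict φ)
  have he : (fun y => φ (w ⬝ᵥ y / gauge K y) * B y) = fun y => φe (w ⬝ᵥ y / gauge K y) * B y := by
    funext y
    simp only [φe, IccExtend_of_mem _ _ (height_radial_mem hK hw y)]
    rfl
  rw [he]
  refine Measure.integrableOn_of_bounded (M := M * C) hK.compact.measure_lt_top.ne
    (((hφ.continuousOn.domRestrict.Icc_extend').measurable.comp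
      (measurable_height_radial hK w)).mul hB).aestronglyMeasurable (Eventually.of_forall fun y => ?_)
  rw [norm_mul]
  have hy : ‖φe (w ⬝ᵥ y / gauge K y)‖ ≤ M := by
    simp only [φe, IccExtend_of_mem _ _ (height_radial_mem hK hw y)]
    exact hM _ (height_radial_mem hK hw y)
  refine mul_le_mul hy ?_ (norm_nonneg _) ((norm_nonneg _).trans hy)
  rw [Real.norm_eq_abs]
  exact hC y

/-- Identities linear in a primitive and its derivative pass from continuous derivatives to
integrable ones. -/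
theorem extend_primitive (hK : Body K) {w : Pt (k + 2)} (hw : supportVal K w = 1)
    {B : Pt (k + 2) → ℝ} (hB : Measurable B) {C : ℝ} (hC : ∀ y, |B y| ≤ C)
    {α β : ℝ → ℝ} (hα : Continuous α) (hβ : Continuous β) {c : ℝ}
    (h : ∀ φ ψ : ℝ → ℝ, Continuous ψ → (∀ s, HasDerivAt φ (ψ s) s) →
      ∫ y in K, φ (w ⬝ᵥ y / gauge K y) * B y
        = c * ∫ s in (-1 : ℝ)..1, W1.marginal K w s * (α s * φ s + β s * ψ s))
    {φ dφ : ℝ → ℝ} (hφ : Primitive φ dφ) :
    ∫ y in K, φ (w ⬝ᵥ y / gauge K y) * B y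
      = c * ∫ s in (-1 : ℝ)..1, W1.marginal K w s * (α s * φ s + β s * dφ s) := by
  obtain ⟨Mw, hMw⟩ := exists_marginal_bound hK (ne_zero_of_supportVal hK hw)
  obtain ⟨Ma, hMa⟩ := isCompact_Icc.exists_bound_of_continuousOn (hα.continuousOn (s := Icc (-1 : ℝ) 1))
  obtain ⟨Mb, hMb⟩ := isCompact_Icc.exists_bound_of_continuousOn (hβ.continuousOn (s := Icc (-1 : ℝ) 1))
  have hMa0 : 0 ≤ Ma := (norm_nonneg _).trans (hMa 0 ⟨by norm_num, by norm_num⟩)
  have hMb0 : 0 ≤ Mb := (norm_nonneg _).trans (hMb 0 ⟨by norm_num, by norm_num⟩)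
  have hMw0 : 0 ≤ Mw := (hMw.exists.choose_spec).trans' (abs_nonneg _)
  have hC0 : 0 ≤ C := (abs_nonneg _).trans (hC 0)
  set V := (volume K).toReal
  set E : ℝ := C * V + |c| * Mw * (2 * Ma + Mb)
  set X := ∫ y in K, φ (w ⬝ᵥ y / gauge K y) * B y
  set Y := c * ∫ s in (-1 : ℝ)..1, W1.marginal K w s * (α s * φ s + β s * dφ s)
  have hd : IntegrableOn dφ (Ioc (-1 : ℝ) 1) :=
    (intervalIntegrable_iff_integrableOn_Ioc_of_le (by norm_num)).1 hφ.integrable
  suffices hε : ∀ ε : ℝ, 0 < ε → |X - Y| ≤ E * ε by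
    refine sub_eq_zero.1 (abs_eq_zero.1 (le_antisymm ?_ (abs_nonneg _)))
    refine le_of_forall_pos_le_add fun δ hδ => ?_
    have hE : 0 < |E| + 1 := by positivity
    refine (hε (δ / (|E| + 1)) (div_pos hδ hE)).trans ?_
    rw [zero_add, ← mul_div_assoc, div_le_iff₀ hE]
    nlinarith [le_abs_self E]
  intro ε hε
  obtain ⟨ψ, -, hle, hψ, -⟩ := hd.exists_hasCompactSupport_integral_sub_le hε
  set F : ℝ → ℝ := fun t => φ 0 + ∫ s in (0 : ℝ)..t, ψ s
  have hF : ∀ s, HasDerivAt F (ψ s) s := fun s =>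
    (hψ.integral_hasStrictDerivAt 0 s).hasDerivAt.const_add _
  have hFp : Primitive F ψ := ⟨hψ.intervalIntegrable _ _, fun t _ => by simp [F]⟩
  have hnear : ∀ t ∈ Icc (-1 : ℝ) 1, |φ t - F t| ≤ ε := by
    intro t ht
    have hsub : uIcc (0 : ℝ) t ⊆ uIcc (-1 : ℝ) 1 := by
      rw [uIcc_of_le (by norm_num : (-1 : ℝ) ≤ 1)]
      exact uIcc_subset_Icc ⟨by norm_num, by norm_num⟩ ht
    rw [hφ.eq t ht, show F t = φ 0 + ∫ s in (0 : ℝ)..t, ψ s from rfl, add_sub_add_left_eq_sub,
      ← intervalIntegral.integral_sub (hφ.integrable.mono_set hsub) (hψ.intervalIntegrable _ _)]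
    refine (Real.norm_eq_abs _).symm.le.trans
      (intervalIntegral.norm_integral_le_integral_norm_uIoc.trans (le_trans ?_ hle))
    refine setIntegral_mono_set (hd.sub hψ.integrableOn_Ioc).norm
      (Eventually.of_forall fun s => norm_nonneg _) (Eventually.of_forall fun s hs => ?_)
    rcases mem_uIoc.1 hs with h | h
    · exact ⟨by linarith [h.1], h.2.trans ht.2⟩
    · exact ⟨ht.1.trans_lt h.1, h.2.trans zero_le_one⟩
  have hX : |X - ∫ y in K, F (w ⬝ᵥ y / gauge K y) * B y| ≤ C * V * ε := by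
    rw [← integral_sub (integrableOn_height_mul hK hw hφ hB hC) (integrableOn_height_mul hK hw hFp hB hC),
      ← Real.norm_eq_abs]
    refine (norm_setIntegral_le_of_norm_le_const hK.compact.measure_lt_top (C := ε * C) fun y _ => ?_).trans
      (le_of_eq (by rw [measureReal_def]; ring))
    rw [Real.norm_eq_abs, ← sub_mul, abs_mul]
    exact mul_le_mul (hnear _ (height_radial_mem hK hw y)) (hC y) (abs_nonneg _) hε.le
  have hint : ∀ {χ dχ : ℝ → ℝ}, Primitive χ dχ → IntervalIntegrable
      (fun s => W1.marginal K w s * (α s * χ s + β s * dχ s)) volume (-1) 1 := fun hχ =>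
    intervalIntegrable_marginal_mul hK hw (((hα.continuousOn.mul (by
      rw [uIcc_of_le (by norm_num : (-1 : ℝ) ≤ 1)]; exact hχ.continuousOn)).intervalIntegrable).add
      (hχ.integrable.continuousOn_mul hβ.continuousOn))
  have hY : |(c * ∫ s in (-1 : ℝ)..1, W1.marginal K w s * (α s * F s + β s * ψ s)) - Y|
      ≤ |c| * Mw * (2 * Ma + Mb) * ε := by
    rw [← mul_sub, ← intervalIntegral.integral_sub (hint hFp) (hint hφ), abs_mul, mul_assoc |c|,
      mul_assoc |c|]
    refine mul_le_mul_of_nonneg_left ?_ (abs_nonneg c)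
    rw [← Real.norm_eq_abs]
    have hub : IntegrableOn (fun s => Mw * (Ma * ε + Mb * ‖(dφ - ψ) s‖)) (Ioc (-1 : ℝ) 1) :=
      ((integrable_const (Ma * ε)).add ((hd.sub hψ.integrableOn_Ioc).norm.const_mul Mb)).const_mul Mw
    refine le_trans (intervalIntegral.norm_integral_le_of_norm_le (by norm_num)
      (hMw.mono fun s hs hsI => ?_)
      ((intervalIntegrable_iff_integrableOn_Ioc_of_le (by norm_num)).2 hub)) ?_
    · have hs' : s ∈ Icc (-1 : ℝ) 1 := Ioc_subset_Icc_self hsI
      rw [Real.norm_eq_abs, ← mul_sub, abs_mul, Pi.sub_apply, Real.norm_eq_abs]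
      refine mul_le_mul hs ?_ (abs_nonneg _) hMw0
      rw [show α s * F s + β s * ψ s - (α s * φ s + β s * dφ s)
        = -(α s * (φ s - F s) + β s * (dφ s - ψ s)) by ring, abs_neg]
      refine (abs_add_le _ _).trans (add_le_add ?_ ?_) <;> rw [abs_mul]
      · exact mul_le_mul (hMa s hs') (hnear s hs') (abs_nonneg _) hMa0
      · exact mul_le_mul_of_nonneg_right (hMb s hs') (abs_nonneg _)
    · rw [intervalIntegral.integral_of_le (by norm_num), integral_const_mul,
        integral_add (integrable_const _) ((hd.sub hψ.integrableOn_Ioc).norm.const_mul Mb),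
        setIntegral_const, integral_const_mul, Real.volume_real_Ioc_of_le (by norm_num), smul_eq_mul]
      have := mul_le_mul_of_nonneg_left hle hMb0
      simp only [Pi.sub_apply] at this ⊢
      nlinarith
  rw [← h F ψ hψ hF] at hY
  calc |X - Y| ≤ |X - ∫ y in K, F (w ⬝ᵥ y / gauge K y) * B y|
        + |(∫ y in K, F (w ⬝ᵥ y / gauge K y) * B y) - Y| := abs_sub_le _ _ _
    _ ≤ E * ε := by simp only [E]; linarith

theorem radial_height (K : Set (Pt (k + 2))) (w y : Pt (k + 2)) :
    w ⬝ᵥ y / gauge K y = w ⬝ᵥ radial K y := by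
  rw [radial, dotProduct_smul, smul_eq_mul, div_eq_inv_mul]

/-- The integral of a function of the radial height. -/
theorem pair_height (hK : Body K) {w : Pt (k + 2)} (hw : supportVal K w = 1) {φ dφ : ℝ → ℝ}
    (hφ : Primitive φ dφ) :
    ∫ y in K, φ (w ⬝ᵥ y / gauge K y) = (1 / ((k : ℝ) + 2)) *
      ∫ s in (-1 : ℝ)..1, W1.marginal K w s * (((k : ℝ) + 2) * φ s + s * dφ s) := by
  have h := extend_primitive hK hw (B := fun _ => 1) measurable_const (C := 1) (fun _ => by simp)
    (α := fun _ => (k : ℝ) + 2) (β := fun s => s) continuous_const continuous_id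
    (c := 1 / ((k : ℝ) + 2)) (fun φ ψ hψ hd => ?_) hφ
  · simpa using h
  simp only [mul_one, radial_height K]
  have hc : Continuous φ := continuous_iff_continuousAt.2 fun t => (hd t).continuousAt
  rw [← integral_height hK hw (by fun_prop : Measurable fun s => ((k : ℝ) + 2) * φ s + s * ψ s),
    cone_radial hK (dot_le_gauge_of_supportVal hK hw) (fun s _ => hd s) hψ.continuousOn,
    one_div, inv_mul_cancel_left₀ (by positivity)]

/-- The slope of the gauge along `v` is measurable and bounded. -/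
theorem exists_slope_bound (hK : Body K) (v : Pt (k + 2)) :
    Measurable (fun y => normalAt K y ⬝ᵥ v) ∧ ∃ C : ℝ, ∀ y, |normalAt K y ⬝ᵥ v| ≤ C := by
  obtain ⟨C, hC⟩ := hK.convex.lipschitz_gauge hK.nhds
  refine ⟨?_, C * ‖v‖, fun y => ?_⟩
  · simp only [P227.Zono.normalAt_dot]
    exact measurable_fderiv_apply_const ℝ _ v
  · rw [P227.Zono.normalAt_dot, ← Real.norm_eq_abs]
    exact (ContinuousLinearMap.le_opNorm _ _).trans
      (mul_le_mul_of_nonneg_right (norm_fderiv_le_of_lipschitz ℝ hC) (norm_nonneg _))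

theorem integrableOn_height (hK : Body K) {w : Pt (k + 2)} (hw : supportVal K w = 1) {φ dφ : ℝ → ℝ}
    (hφ : Primitive φ dφ) : IntegrableOn (fun y => φ (w ⬝ᵥ y / gauge K y)) K := by
  simpa using integrableOn_height_mul hK hw hφ (B := fun _ => 1) measurable_const (C := 1)
    fun _ => by simp

theorem integrableOn_touch (hK : Body K) {w : Pt (k + 2)} (hw : supportVal K w = 1) (v : Pt (k + 2))
    {φ dφ : ℝ → ℝ} (hφ : Primitive φ dφ) :
    IntegrableOn (fun y => φ (w ⬝ᵥ y / gauge K y) * (normalAt K y ⬝ᵥ v)) K := by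
  obtain ⟨hm, C, hC⟩ := exists_slope_bound hK v
  exact integrableOn_height_mul hK hw hφ hm hC

/-- The integral of a function of the radial height times the slope of the gauge along `v`. -/
theorem pair_touch (hK : Body K) {w v : Pt (k + 2)} (hw : supportVal K w = 1) (hv : w ⬝ᵥ v = 1)
    {φ dφ : ℝ → ℝ} (hφ : Primitive φ dφ) :
    ∫ y in K, φ (w ⬝ᵥ y / gauge K y) * (normalAt K y ⬝ᵥ v) = (1 / ((k : ℝ) + 2)) *
      ∫ s in (-1 : ℝ)..1, W1.marginal K w s * dφ s := by
  obtain ⟨hBm, C, hB⟩ := exists_slope_bound hK v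
  have h := extend_primitive hK hw hBm hB (α := fun _ => 0) (β := fun _ => 1) continuous_const
    continuous_const (c := 1 / ((k : ℝ) + 2)) (fun φ ψ hψ hd => ?_) hφ
  · simpa using h
  simp only [radial_height K, zero_mul, zero_add, one_mul]
  have h := cone_dir hK (dot_le_gauge_of_supportVal hK hw) v (fun s _ => hd s) hψ.continuousOn
  rw [hv, one_mul, integral_height hK hw hψ.measurable] at h
  rw [h, one_div, inv_mul_cancel_left₀ (by positivity)]

end Vale.Agent.P237.Pair
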