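import Vale.Agent.P237.Pair.Defs

/-!
# P237: the slice radius across a normal
-/

namespace Vale.Agent.P237.Pair

open MeasureTheory Set Function Filter Matrix
open scoped Pointwise
open Vale.Agent.P237.AllN (unitBall semicircle radius profileArea lastAxis exists_reflection)
open Full (Cvx Solid lo hi sliceVol rad)

variable {k : ℕ}

/-- Across `w` of support value one the marginal is a multiple of a power of a slice radius. -/
theorem exists_sliceRadius {K : Set (Pt (k + 2))} (hK : P227.Zono.Body K) {w : Pt (k + 2)}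
    (hw : P227.Zono.supportVal K w = 1) :
    ∃ (r : ℝ → ℝ) (C : ℝ), 0 < C ∧ SliceRadius r ∧
      (∀ᵐ s, W1.marginal K w s = C * profileArea (k + 1) r s) ∧
      (volume K).toReal = C * ∫ t in (-1 : ℝ)..1, r t ^ (k + 1) := by
  have hw0 : w ≠ 0 := by
    rintro rfl
    obtain ⟨y, -, hy⟩ := Full.exists_supportVal hK.compact (Cvx.of_body hK).nonempty (0 : Pt (k + 2))
    rw [hw, zero_dotProduct] at hy
    exact zero_ne_one hy
  set c := √(w ⬝ᵥ w)
  have hww : 0 < w ⬝ᵥ w :=
    lt_of_le_of_ne (Finset.sum_nonneg fun i _ => mul_self_nonneg _)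
      fun h => hw0 (dotProduct_self_eq_zero.1 h.symm)
  have hc : 0 < c := Real.sqrt_pos.2 hww
  set u := c⁻¹ • w
  have hcu : c • u = w := smul_inv_smul₀ hc.ne' w
  have hu : u ⬝ᵥ u = 1 := by
    simp only [u, smul_dotProduct, dotProduct_smul, smul_eq_mul]
    rw [← Real.mul_self_sqrt hww.le]
    show c⁻¹ * (c⁻¹ * (c * c)) = 1
    field_simp
  obtain ⟨R, hR, hinv, hadj, hRu⟩ := exists_reflection hu
  set T : (Pt (k + 1) × ℝ) ≃ₗ[ℝ] Pt (k + 2) := (snocLin (k + 1)).trans R
  have hT : MeasurePreserving T volume volume := hR.comp (measurePreserving_snocLin (k + 1))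
  have hTu : ∀ p, u ⬝ᵥ T p = p.2 := fun p => by
    show u ⬝ᵥ R (snocLin (k + 1) p) = p.2
    rw [← hadj, hRu]
    exact AllN.lastAxis_dot_snoc p.1 p.2
  set M : Pt (k + 2) ≃ₗ[ℝ] Pt (k + 2) :=
    R.trans (LinearEquiv.smulOfNeZero ℝ (Pt (k + 2)) c hc.ne')
  set K' := M '' K
  have hK' : P227.Zono.Body K' := Full.body_image M hK
  have hM : ∀ x, M x = c • R x := fun x => rfl
  have hsupp : P227.Zono.supportVal K' (lastAxis (k + 1)) = 1 := by
    rw [← hw, P227.Zono.supportVal, P227.Zono.supportVal, image_image]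
    congr 1
    refine image_congr fun x _ => ?_
    rw [hM, dotProduct_smul, ← hRu, hadj, hinv, ← smul_dotProduct, hcu]
  obtain ⟨hA, hlo, hhi⟩ := AllN.heights hK' hsupp
  set A := snocLin (k + 1) ⁻¹' K' with hAdef
  set A₀ := T.symm '' K with hA₀
  have hslice : ∀ t, P237.slice A t = c • P237.slice A₀ (c⁻¹ * t) := by
    intro t
    ext y
    rw [mem_smul_set_iff_inv_smul_mem₀ hc.ne']
    simp only [P237.slice, hAdef, hA₀, mem_preimage, T.image_symm_eq_preimage]
    have e : (c⁻¹ • y, c⁻¹ * t) = c⁻¹ • ((y, t) : Pt (k + 1) × ℝ) := rfl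
    rw [e, map_smul]
    show _ ↔ c⁻¹ • R (snocLin (k + 1) (y, t)) ∈ K
    constructor
    · rintro ⟨x, hx, he⟩
      rw [hM] at he
      rwa [← he, map_smul, hinv, inv_smul_smul₀ hc.ne']
    · intro hx
      refine ⟨_, hx, ?_⟩
      rw [hM, map_smul, hinv, smul_inv_smul₀ hc.ne']
  have hvol : ∀ t, sliceVol A t = c ^ (k + 1) * sliceVol A₀ (c⁻¹ * t) := fun t => by
    simp only [sliceVol, hslice, Measure.addHaar_smul, Module.finrank_fin_fun,
      abs_of_pos (pow_pos hc (k + 1)), ENNReal.toReal_mul,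
      ENNReal.toReal_ofReal (pow_pos hc (k + 1)).le]
  refine ⟨radius A, c⁻¹ ^ (k + 2) * unitBallVolume (k + 1),
    mul_pos (pow_pos (inv_pos.2 hc) _) (unitBallVolume_pos _),
    ⟨fun t => ?_, AllN.concave_radius hA hlo hhi, AllN.radius_nonneg A, fun t ht => ?_⟩, ?_⟩
  · have hs : P237.slice A (-t) = -P237.slice A t := by
      have hn : ∀ p, p ∈ A → -p ∈ A := fun p hp => by
        show snocLin (k + 1) (-p) ∈ K'
        rw [map_neg]; exact hK'.neg_mem _ hp
      ext y
      exact ⟨fun hy => by simpa [P237.slice] using hn _ hy,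
        fun hy => by simpa [P237.slice] using hn (-y, t) (Set.mem_neg.1 hy)⟩
    by_cases ht : t ∈ Ioo (-1 : ℝ) 1
    · have ht' : -t ∈ Ioo (-1 : ℝ) 1 := ⟨by linarith [ht.2], by linarith [ht.1]⟩
      simp only [radius, indicator_of_mem ht, indicator_of_mem ht', hs, rad, Measure.measure_neg]
    · have ht' : -t ∉ Ioo (-1 : ℝ) 1 := fun h => ht ⟨by linarith [h.2], by linarith [h.1]⟩
      simp only [radius, indicator_of_notMem ht, indicator_of_notMem ht']
  · rw [radius, indicator_of_mem ht]
    exact div_pos (hA.rad_slice_pos (by rwa [hlo, hhi])) (AllN.rad_unitBall_pos k)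
  · refine ⟨?_, ?_⟩
    · filter_upwards [W1.marginal_ae hK hT hTu hc, AllN.slices_ae hA hlo hhi] with s h1 h2
      rw [hcu] at h1
      rw [h1, mul_assoc, ← h2, hvol, ← hA₀]
      rw [← mul_assoc, pow_succ' c⁻¹ (k + 1), mul_assoc c⁻¹, ← mul_pow, inv_mul_cancel₀ hc.ne',
        one_pow, mul_one]
    · have hV₀ : ∫ t, sliceVol A₀ t = (volume K).toReal := by
        rw [(AllN.measurePreserving_solid hK T).integral_sliceVol, T.image_symm_eq_preimage,
          hT.measure_preimage_emb T.toContinuousLinearEquiv.toHomeomorph.measurableEmbedding]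
      have h1 : ∫ t, sliceVol A t = unitBallVolume (k + 1) * ∫ t in (-1 : ℝ)..1, radius A t ^ (k + 1) := by
        rw [integral_congr_ae (AllN.slices_ae hA hlo hhi), integral_const_mul,
          AllN.integral_profileArea]
      have h2 : ∫ t, sliceVol A t = c ^ (k + 2) * (volume K).toReal := by
        simp only [hvol]
        rw [integral_const_mul, Measure.integral_comp_mul_left (sliceVol A₀), inv_inv, abs_of_pos hc,
          smul_eq_mul, hV₀, ← mul_assoc, ← pow_succ]
      rw [mul_assoc, ← h1, h2, ← mul_assoc, ← mul_pow, inv_mul_cancel₀ hc.ne', one_pow, one_mul]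

/-- Powers of the slice radius are integrable. -/
theorem SliceRadius.intervalIntegrable {r : ℝ → ℝ} (hr : SliceRadius r) (j : ℕ) :
    IntervalIntegrable (fun t => r t ^ j) volume (-1) 1 := by
  have hanti : AntitoneOn r (Icc 0 1) := by
    intro x hx y hy hxy
    have hm : x ∈ segment ℝ (-y) y := by
      rw [segment_eq_Icc (by linarith [hy.1])]; exact ⟨by linarith [hx.1, hy.1], hxy⟩
    have := hr.concave.ge_on_segment (x := -y) (y := y) ⟨by linarith [hy.2], by linarith [hy.1]⟩
      ⟨by linarith [hy.1], hy.2⟩ hm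
    simpa [hr.even] using this
  have h1 : IntervalIntegrable (fun t => r t ^ j) volume 0 1 := by
    refine AntitoneOn.intervalIntegrable ?_
    rw [uIcc_of_le zero_le_one]
    exact fun x hx y hy hxy => pow_le_pow_left₀ (hr.nonneg y) (hanti hx hy hxy) j
  have h2 : IntervalIntegrable (fun t => r t ^ j) volume (-1) 0 := by
    have e := h1.comp_sub_left 0
    simp only [zero_sub, neg_zero, hr.even] at e
    exact e.symm
  exact h2.trans h1

theorem SliceRadius.integral_pos {r : ℝ → ℝ} (hr : SliceRadius r) (j : ℕ) :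
    0 < ∫ t in (-1 : ℝ)..1, r t ^ j :=
  intervalIntegral.intervalIntegral_pos_of_pos_on (hr.intervalIntegrable j)
    (fun t ht => pow_pos (hr.pos t ht) j) (by norm_num)

/-- `renyiGain` against the value at balls is the moment excess of the slice radius. -/
theorem renyiGain_sub {K : Set (Pt (k + 2))} (hk : 1 ≤ k) {w : Pt (k + 2)} {r : ℝ → ℝ} {C : ℝ}
    (hC : 0 < C) (hr : SliceRadius r)
    (hA : ∀ᵐ s, W1.marginal K w s = C * profileArea (k + 1) r s)
    (hV : (volume K).toReal = C * ∫ t in (-1 : ℝ)..1, r t ^ (k + 1)) :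
    (W1.renyiGain K w ≤ W1.renyiBall k ↔ excess k r ≤ 0) ∧
      (W1.renyiGain K w < W1.renyiBall k ↔ excess k r < 0) := by
  set α : ℝ := (k : ℝ) / (k + 1) with hα
  have hα0 : 0 < α := div_pos (Nat.cast_pos.2 hk) (by positivity)
  set X := ∫ t in (-1 : ℝ)..1, r t ^ k
  set Y := ∫ t in (-1 : ℝ)..1, r t ^ (k + 1)
  set S := ∫ t in (-1 : ℝ)..1, semicircle t ^ k
  set S' := ∫ t in (-1 : ℝ)..1, semicircle t ^ (k + 1) with hS'
  have hY : 0 < Y := hr.integral_pos _
  have hS'0 : 0 < S' := by
    rw [hS', AllN.integral_semicircle_pow]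
    exact div_pos (unitBallVolume_pos _) (unitBallVolume_pos _)
  have hint : ∫ s, W1.marginal K w s ^ α = C ^ α * X := by
    have e : ∀ᵐ s, W1.marginal K w s ^ α = C ^ α * profileArea k r s := hA.mono fun s hs => by
      rw [hs]
      simp only [profileArea]
      by_cases h : s ∈ Icc (-1 : ℝ) 1
      · rw [indicator_of_mem h, indicator_of_mem h, Real.mul_rpow hC.le (pow_nonneg (hr.nonneg s) _),
          ← Real.rpow_natCast (r s) (k + 1), ← Real.rpow_mul (hr.nonneg s), hα]
        congr 1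
        rw [← Real.rpow_natCast]
        congr 1
        push_cast
        field_simp
      · rw [indicator_of_notMem h, indicator_of_notMem h, mul_zero, mul_zero, Real.zero_rpow hα0.ne']
    rw [integral_congr_ae e, integral_const_mul, AllN.integral_profileArea]
  have hG : W1.renyiGain K w = X ^ (k + 1) / Y ^ k := by
    rw [W1.renyiGain, hint, hV, mul_pow, mul_pow]
    have : (C ^ α) ^ (k + 1) = C ^ k := by
      rw [← Real.rpow_natCast, ← Real.rpow_mul hC.le, ← Real.rpow_natCast C k, hα]
      congr 1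
      push_cast
      field_simp
    rw [this, mul_div_mul_left _ _ (pow_ne_zero _ hC.ne')]
  have hB : W1.renyiBall k = S ^ (k + 1) / S' ^ k := by
    have h1 : unitBallVolume (k + 2) = unitBallVolume (k + 1) * S' := by
      rw [hS', AllN.integral_semicircle_pow, mul_div_cancel₀ _ (unitBallVolume_pos _).ne']
    rw [W1.renyiBall, h1, mul_pow,
      mul_div_mul_left _ _ (pow_ne_zero _ (unitBallVolume_pos _).ne')]
  rw [hG, hB, excess, sub_nonpos, sub_neg, div_le_div_iff₀ (pow_pos hY _) (pow_pos hS'0 _),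
    div_lt_div_iff₀ (pow_pos hY _) (pow_pos hS'0 _)]
  exact ⟨Iff.rfl, Iff.rfl⟩

end Vale.Agent.P237.Pair
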