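import Vale.Agent.P237.Pair.Profile
import Vale.Agent.P237.Pair.Identity

/-!
# P237: the gate gives the bound at one normal
-/

namespace Vale.Agent.P237.Pair

open MeasureTheory Set Function Filter Matrix
open Vale.Agent.P237.AllN (profileArea)
open Full (Cvx)

variable {k : ℕ}

/-- The two heights of a pair of points. -/
noncomputable def pairHeight (K : Set (Pt (k + 2))) (x y : Pt (k + 2)) : ℝ :=
  P227.Zono.normalAt K x ⬝ᵥ y / gauge K y

variable {K : Set (Pt (k + 2))}

theorem measurable_pairHeight (hK : P227.Zono.Body K) :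
    Measurable fun p : Pt (k + 2) × Pt (k + 2) => pairHeight K p.1 p.2 := by
  have h1 : Measurable fun p : Pt (k + 2) × Pt (k + 2) => P227.Zono.normalAt K p.1 ⬝ᵥ p.2 :=
    Finset.measurable_sum _ fun i _ =>
      ((measurable_pi_apply i).comp ((P227.Zono.measurable_normalAt K).comp measurable_fst)).mul
        ((measurable_pi_apply i).comp measurable_snd)
  obtain ⟨C, hC⟩ := hK.convex.lipschitz_gauge hK.nhds
  exact h1.div (hC.continuous.measurable.comp measurable_snd)

theorem abs_pairHeight_le (hK : P227.Zono.Body K) {x : Pt (k + 2)}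
    (hx : P227.Zono.supportVal K (P227.Zono.normalAt K x) = 1) (y : Pt (k + 2)) :
    |pairHeight K x y| ≤ 1 := by
  have h := (P227.Zono.supportVal_eq hK (P227.Zono.normalAt K x)).1 _ (hK.inv_smul_mem y)
  rw [hx, dotProduct_smul, smul_eq_mul] at h
  rwa [pairHeight, div_eq_inv_mul]

theorem abs_pairHeight_ae (hK : P227.Zono.Body K) :
    ∀ᵐ x ∂volume.restrict K, ∀ y, pairHeight K x y ∈ Icc (-1 : ℝ) 1 :=
  (ae_restrict_of_ae (Cvx.of_body hK).supportVal_normal).mono fun _ hx y =>
    abs_le.1 (abs_pairHeight_le hK hx y)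

theorem SliceRadius.le_zero {r : ℝ → ℝ} (hr : SliceRadius r) {t : ℝ} (ht : t ∈ Icc (-1 : ℝ) 1) :
    r t ≤ r 0 := by
  have h := hr.concave.2 ht (show -t ∈ Icc (-1 : ℝ) 1 from ⟨by linarith [ht.2], by linarith [ht.1]⟩)
    (show (0 : ℝ) ≤ 1/2 by norm_num) (show (0 : ℝ) ≤ 1/2 by norm_num) (by norm_num)
  simp only [smul_eq_mul, hr.even] at h
  rw [show (1:ℝ)/2 * t + 1/2 * -t = 0 by ring] at h
  linarith

theorem SliceRadius.integrable_mul {r h : ℝ → ℝ} (hr : SliceRadius r) (j : ℕ)
    (hh : IntervalIntegrable h volume (-1) 1) :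
    IntervalIntegrable (fun t => r t ^ j * h t) volume (-1) 1 := by
  have hi := hr.intervalIntegrable j
  rw [intervalIntegrable_iff_integrableOn_Ioc_of_le (by norm_num)] at hi hh ⊢
  refine hh.bdd_mul hi.aestronglyMeasurable (c := r 0 ^ j) ?_
  filter_upwards [ae_restrict_mem measurableSet_Ioc] with t ht
  rw [Real.norm_eq_abs, abs_of_nonneg (pow_nonneg (hr.nonneg t) j)]
  exact pow_le_pow_left₀ (hr.nonneg t) (hr.le_zero (Ioc_subset_Icc_self ht)) j

theorem bounded_comp {α : Type*} [MeasurableSpace α] {φ : ℝ → ℝ}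
    (hφ : ContinuousOn φ (Icc (-1) 1)) {t : α → ℝ} (hm : Measurable t)
    (ht : ∀ y, t y ∈ Icc (-1 : ℝ) 1) :
    Measurable (fun y => φ (t y)) ∧ ∃ M, ∀ y, |φ (t y)| ≤ M := by
  obtain ⟨M, hM⟩ := isCompact_Icc.exists_bound_of_continuousOn hφ
  refine ⟨?_, M, fun y => hM _ (ht y)⟩
  have h : Measurable fun y => (Icc (-1 : ℝ) 1).domRestrict φ ⟨t y, ht y⟩ :=
    hφ.domRestrict.measurable.comp hm.subtype_mk
  exact h

/-- The mean of the kernel seen from a normal is at least the value of every minorant. -/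
theorem pair_lower (hK : P227.Zono.Body K) {F : ℝ → ℝ → ℝ} (hF : Kernel F) {x : Pt (k + 2)}
    (hx : P227.Zono.supportVal K (P227.Zono.normalAt K x) = 1) (hx0 : x ≠ 0)
    (hd : DifferentiableAt ℝ (gauge K) x) {r : ℝ → ℝ} {C : ℝ} (hr : SliceRadius r)
    (hA : ∀ᵐ s, W1.marginal K (P227.Zono.normalAt K x) s = C * profileArea (k + 1) r s)
    {p dp q dq : ℝ → ℝ} (hm : Minorant F p dp q dq) :
    C / ((k : ℝ) + 2) * pairValue k r dp q dq
      ≤ ∫ y in K, F (pairHeight K x y) (pairHeight K y x) := by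
  set w := P227.Zono.normalAt K x
  set v : Pt (k + 2) := (gauge K x)⁻¹ • x
  have hgx := hK.gauge_pos' hx0
  have hv : w ⬝ᵥ v = 1 := by
    rw [dotProduct_smul, hK.dot_self hd, smul_eq_mul, inv_mul_cancel₀ hgx.ne']
  have hz : ∀ y, pairHeight K y x = P227.Zono.normalAt K y ⬝ᵥ v := fun y => by
    rw [pairHeight, dotProduct_smul, smul_eq_mul, div_eq_inv_mul]
  have hfin : IsFiniteMeasure (volume.restrict K) :=
    isFiniteMeasure_restrict.2 hK.compact.measure_lt_top.ne
  have ht : ∀ y, w ⬝ᵥ y / gauge K y ∈ Icc (-1 : ℝ) 1 := fun y => abs_le.1 (abs_pairHeight_le hK hx y)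
  have hzb : ∀ᵐ y ∂volume.restrict K, pairHeight K y x ∈ Icc (-1 : ℝ) 1 :=
    (abs_pairHeight_ae hK).mono fun y hy => hy x
  have hmt : Measurable fun y => w ⬝ᵥ y / gauge K y := by
    have h := (measurable_pairHeight hK).comp
      (measurable_const.prodMk measurable_id : Measurable fun y : Pt (k + 2) => (x, y))
    exact h
  have hmz : Measurable fun y => pairHeight K y x := by
    have h := (measurable_pairHeight hK).comp
      (measurable_id.prodMk measurable_const : Measurable fun y : Pt (k + 2) => (y, x))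
    exact h
  have hxy : ∀ y, pairHeight K x y = w ⬝ᵥ y / gauge K y := fun _ => rfl
  obtain ⟨hmp, Mp, hMp⟩ := bounded_comp hm.prim_p.continuousOn hmt ht
  obtain ⟨hmq, Mq, hMq⟩ := bounded_comp hm.prim_q.continuousOn hmt ht
  have hiq : Integrable (fun y => q (w ⬝ᵥ y / gauge K y)) (volume.restrict K) :=
    Integrable.of_bound hmq.aestronglyMeasurable Mq (Eventually.of_forall hMq)
  have hip : Integrable (fun y => p (w ⬝ᵥ y / gauge K y) * pairHeight K y x) (volume.restrict K) := by
    have hmm : Measurable fun y => p (w ⬝ᵥ y / gauge K y) * pairHeight K y x := hmp.mul hmz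
    refine Integrable.of_bound hmm.aestronglyMeasurable Mp (hzb.mono fun y hy => ?_)
    rw [Real.norm_eq_abs, abs_mul]
    exact (mul_le_of_le_one_right (abs_nonneg _) (abs_le.2 hy)).trans (hMp y)
  obtain ⟨MF, hMF⟩ := hF.bounded
  have hiF : Integrable (fun y => F (pairHeight K x y) (pairHeight K y x)) (volume.restrict K) := by
    simp only [hxy]
    have hmF : Measurable fun y => F (w ⬝ᵥ y / gauge K y) (pairHeight K y x) :=
      hF.measurable.comp (hmt.prodMk hmz)
    exact Integrable.of_bound hmF.aestronglyMeasurable MF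
      (hzb.mono fun y hy => hMF _ (ht y) _ hy)
  refine le_trans (le_of_eq ?_) (integral_mono_ae (hiq.add hip) hiF (hzb.mono fun y hy => ?_))
  · rw [integral_add' hiq hip]
    have h1 := pair_height hK hx hm.prim_q
    have h2 : ∫ y in K, p (w ⬝ᵥ y / gauge K y) * pairHeight K y x
        = 1 / ((k : ℝ) + 2) * ∫ s in (-1 : ℝ)..1, W1.marginal K w s * dp s := by
      simp only [hz]
      exact pair_touch hK hx hv hm.prim_p
    rw [h1, h2, ← mul_add, pairValue]
    have hae : ∀ f : ℝ → ℝ, ∫ s in (-1 : ℝ)..1, W1.marginal K w s * f s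
        = C * ∫ s in (-1 : ℝ)..1, r s ^ (k + 1) * f s := fun f => by
      rw [← intervalIntegral.integral_const_mul]
      refine intervalIntegral.integral_congr_ae (hA.mono fun s hs hs' => ?_)
      rw [uIoc_of_le (by norm_num : (-1 : ℝ) ≤ 1)] at hs'
      rw [hs, profileArea, indicator_of_mem (Ioc_subset_Icc_self hs')]
      ring
    rw [hae, hae, ← mul_add, ← intervalIntegral.integral_add]
    · rw [← mul_assoc, one_div, ← div_eq_inv_mul]
      congr 1
      refine intervalIntegral.integral_congr fun s _ => ?_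
      ring
    · refine hr.integrable_mul _ (IntervalIntegrable.add ?_ ?_)
      · exact ((hm.prim_q.continuousOn.const_smul ((k : ℝ) + 2)).intervalIntegrable_of_Icc
          (by norm_num))
      · exact hm.prim_q.integrable.continuousOn_mul continuousOn_id
    · exact hr.integrable_mul _ hm.prim_p.integrable
  · show q _ + p _ * _ ≤ F (pairHeight K x y) _
    have := hm.le _ (ht y) _ hy
    simp only [pairHeight] at this ⊢
    linarith

/-- GATE2 gives the bound at one normal. -/
theorem normalBound_of_gate (hk : 1 ≤ k) (hG : Gate k) : W1.NormalBound k := by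
  obtain ⟨F, hF, hgate⟩ := hG
  intro K hK hle
  set μ := volume.restrict K
  have : IsFiniteMeasure μ := isFiniteMeasure_restrict.2 hK.compact.measure_lt_top.ne
  set H : Pt (k + 2) → Pt (k + 2) → ℝ := fun x y => F (pairHeight K x y) (pairHeight K y x)
  set G : Pt (k + 2) → ℝ := fun x => ∫ y, H x y ∂μ
  have hint : Integrable (uncurry H) (μ.prod μ) := by
    obtain ⟨M, hM⟩ := hF.bounded
    refine Integrable.of_bound (hF.measurable.comp ((measurable_pairHeight hK).prodMk
      ((measurable_pairHeight hK).comp measurable_swap))).aestronglyMeasurable M ?_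
    filter_upwards [Measure.quasiMeasurePreserving_fst.ae (abs_pairHeight_ae hK),
      Measure.quasiMeasurePreserving_snd.ae (abs_pairHeight_ae hK)] with p h1 h2
    exact hM _ (h1 p.2) _ (h2 p.1)
  have hzero : ∫ x, G x ∂μ = 0 := by
    have h1 : ∫ x, G x ∂μ = ∫ p, uncurry H p ∂μ.prod μ := (integral_prod _ hint).symm
    have h2 : ∫ p, uncurry H p ∂μ.prod μ = -∫ p, uncurry H p ∂μ.prod μ := by
      conv_lhs => rw [← integral_prod_swap]
      rw [← integral_neg]
      exact integral_congr_ae (Eventually.of_forall fun p => hF.swap _ _)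
    linarith
  have key : ∀ᵐ x ∂μ, W1.renyiGain K (P227.Zono.normalAt K x) ≤ W1.renyiBall k →
      0 ≤ G x ∧ (W1.renyiGain K (P227.Zono.normalAt K x) < W1.renyiBall k → 0 < G x) := by
    filter_upwards [ae_restrict_of_ae (Cvx.of_body hK).supportVal_normal,
      ae_restrict_of_ae hK.ae_differentiable, ae_restrict_of_ae (Measure.ae_ne volume (0 : Pt (k + 2)))]
      with x hx hd hx0 hxle
    obtain ⟨r, C, hC, hr, hA, hV⟩ := exists_sliceRadius hK hx
    obtain ⟨e1, e2⟩ := renyiGain_sub hk hC hr hA hV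
    have hpos : 0 < C / ((k : ℝ) + 2) := by positivity
    refine ⟨?_, fun hlt => ?_⟩
    · by_contra hneg
      rw [not_le] at hneg
      obtain ⟨p, dp, q, dq, hm, hη⟩ := (hgate r hr).1 (e1.1 hxle) (-G x / (2 * (C / ((k : ℝ) + 2))))
        (div_pos (neg_pos.2 hneg) (by positivity))
      have h := (mul_le_mul_of_nonneg_left hη hpos.le).trans
        (pair_lower hK hF hx hx0 hd hr hA hm)
      have e : C / ((k : ℝ) + 2) * -(-G x / (2 * (C / ((k : ℝ) + 2)))) = G x / 2 := by
        field_simp
      rw [e] at h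
      change G x / 2 ≤ G x at h
      linarith
    · obtain ⟨p, dp, q, dq, hm, hη⟩ := (hgate r hr).2 (e2.1 hlt)
      exact (mul_pos hpos hη).trans_le (pair_lower hK hF hx hx0 hd hr hA hm)
  have hnn : 0 ≤ᵐ[μ] G := (key.and hle).mono fun x h => (h.1 h.2).1
  have hG0 : G =ᵐ[μ] 0 := (integral_eq_zero_iff_of_nonneg_ae hnn hint.integral_prod_left).1 hzero
  filter_upwards [key, hle, hG0] with x h1 h2 h3
  by_contra hlt
  exact ((h1 h2).2 (not_le.1 hlt)).ne' h3

/-- GATE2 in every dimension gives Petty's inequality with its equality cases. -/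
theorem petty_of_gate (hG : ∀ k, 2 ≤ k → Gate k) {n : ℕ} (hn : 3 ≤ n)
    {K : Set (EuclideanSpace ℝ (Fin n))} (hK : IsCompact K)
    (hc : Convex ℝ K) (hi : (interior K).Nonempty) :
    unitBallVolume (n - 1) ^ n * unitBallVolume n ^ (2 - (n : ℤ)) * euclVolume n K ^ (n - 1)
        ≤ euclVolume n (projBody K) ∧
      (euclVolume n (projBody K)
          = unitBallVolume (n - 1) ^ n * unitBallVolume n ^ (2 - (n : ℤ)) * euclVolume n K ^ (n - 1) ↔
        ∃ (T : EuclideanSpace ℝ (Fin n) ≃ₗ[ℝ] EuclideanSpace ℝ (Fin n))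
          (a : EuclideanSpace ℝ (Fin n)), K = (fun x => T x + a) '' Metric.closedBall 0 1) :=
  W1.petty_of_normal (fun k hk => normalBound_of_gate (by omega) (hG k hk)) hn hK hc hi

end Vale.Agent.P237.Pair
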